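import Vale.Agent.P076.NS.Defs

/-!
# P076 / BG : the broad gain, pair counting and choice of the window : statements (helper245)

* `gw F w s` : growth of the direction set of resolution `2 ^ (-w n)` between the balls of radius `2 ^ (s n)` and
  `2 ^ ((s + w) n)`.
* `StLW1` : Loomis-Whitney in one window.  Owner: 732.
* `TGP` : `TGH` together with the two flatness properties used by the pair counting.  Owner: 228.
* `StPJ` : pair counting.  Owner: 245.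
* `StQD` : the real analysis.  Owner: 307.
* `Win` : a good window; `StPAIR` : there is a good window.  Owner: 245 (`StLW1 → StPJ → StQD → StPAIR`).
* `TGX` : `TGP` and the flatness of the variables of the window lemma; `StWIN` : there is no good window.  Owner: 803.
* `StTG'` : target, `StPAIR → StWIN → StTG'`.
-/

set_option autoImplicit false

open Filter Topology Finset Vale.Agent.P127 Vale.Agent.P127.Stk Vale.Agent.P127.U Vale.Agent.P127.U.Sys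
  Vale.Agent.P122.C2 Vale.Agent.P122.E Vale.Agent.P076.NS

namespace Vale.Agent.P076.BG

variable {K : ℕ} (F : Flg K)

/-- growth of the direction set of resolution `w` from the balls `s` to the balls `s + w` -/
noncomputable def gw (w s : ℕ) : ℝ := F.S.hc (F.Y w) (bl F (s + w)) - F.S.hc (F.Y w) (bl F s)

/-- [LW1] Loomis-Whitney in one window, with three copies of the direction given the small ball -/
def StLW1 : Prop := ∃ A : ℝ, 0 ≤ A ∧ ∀ c1 : ℝ, 0 < c1 → ∀ (K : ℕ) (F : Flg K), 1 ≤ K → TG0 F c1 →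
  ∀ s w : ℕ, 1 ≤ w → w ≤ s → w ≤ K → s + w ≤ 2 * K →
    3 * F.S.hc (bl F s) (Sys.pr (bl F (s + w)) (Sys.pr (F.Y w) (pj F s w))) ≤
      F.S.hc (bl F s) (bl F (s + w)) + 6 * gw F w s + A / K

/-- `TGH` and the flatness of the tubes and of the time digits on the tubes -/
structure TGP (c1 κ : ℝ) : Prop extends TGH F c1 κ where
  /-- number of tubes -/
  N1 : ∀ b, b ≤ K → Cnt F.S (F.N b) (one (S := F.S)) (F.S.h (F.N b) + κ)
  /-- time digits on the tubes: no atoms -/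
  UT : ∀ c b, c ≤ b → b ≤ K →
    Unf F.S (Sys.pr (F.N b) (F.T c)) (F.S.h (F.N b) + ∑ i ∈ Ico c b, tc F i - κ)

/-- [PJ] **pair counting**: two cells on a tube of level `b`; no hypothesis of stability -/
def StPJ : Prop := ∀ (K : ℕ) (F : Flg K) (b h r : ℕ) (H τ : ℝ), b ≤ K → h ≤ b → 2 * r ≤ h → 0 < τ →
  Cnt F.S (F.N b) (one (S := F.S)) H → Unf F.S (Sys.pr (F.N b) (F.T (b - r))) (H + τ) →
  F.S.hc (F.Y h) F.x + F.S.hc (bl F (2 * b - h)) (Sys.pr (F.N b) (bl F (2 * b))) ≤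
    F.S.hc (bl F (2 * b - h)) (bl F (2 * b)) + 4 * r / K

/-- [QD] quantitative differentiation: `e s` entropy of the cell in the ball `s`, `D d s` directions of resolution `d` in the
ball `s` -/
def StQD : Prop := ∀ η : ℝ, 0 < η → ∃ (h0 κ : ℝ) (K0 : ℕ), 0 < h0 ∧ 0 < κ ∧ ∀ (K : ℕ) (e : ℕ → ℝ) (D : ℕ → ℕ → ℝ), K0 ≤ K →
  0 ≤ e 0 → (∀ s s', s ≤ s' → s' ≤ 2 * K → e s ≤ e s') → (∀ s s', s ≤ s' → s' ≤ 2 * K → e s' - e s ≤ 3 * ((s' : ℝ) - s) / K + κ) →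
  (∀ s, s ≤ 2 * K → e s ≤ 2 * s / K + κ) → 3 ≤ e (2 * K) →
  (∀ d s, d ≤ K → s ≤ 2 * K → 0 ≤ D d s ∧ D d s ≤ 2 * d / K + κ) →
  (∀ d s s', d ≤ K → s ≤ s' → s' ≤ 2 * K → D d s ≤ D d s') →
  (∀ b h r : ℕ, b ≤ K → h ≤ b → 2 * r ≤ h → κ < e (2 * b) - e (2 * b - 2 * r) →
    ((h : ℝ) - 6 * r) / K - κ ≤ e (2 * b) - e (2 * b - h)) →
  ∃ (w s : ℕ) (ρ : ℝ), h0 * K ≤ w ∧ 4 * w ≤ s ∧ s ≤ 2 * K ∧ 3 / 10 ≤ ρ ∧ ρ ≤ 17 / 20 ∧
    (∀ s', s - w ≤ s' → s' ≤ s → |e s' - e (s - w) - 3 * ρ * ((s' : ℝ) - (s - w : ℕ)) / K| ≤ η * w / K) ∧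
    D w s - D w (s - w) ≤ η * w / K

/-- a good window `[s - w, s]` : linear of slope `3 ρ`, stable -/
structure Win (η h ρ : ℝ) (s w : ℕ) : Prop where
  hw : h * K ≤ w
  ws : 4 * w ≤ s
  sK : s ≤ 2 * K
  r0 : 3 / 10 ≤ ρ
  r1 : ρ ≤ 17 / 20
  lin : ∀ s', s - w ≤ s' → s' ≤ s → |F.S.hc (bl F (s - w)) (bl F s') - 3 * ρ * ((s' : ℝ) - (s - w : ℕ)) / K| ≤ η * w / K
  stb : F.S.hc (F.Y w) (bl F s) - F.S.hc (F.Y w) (bl F (s - w)) ≤ η * w / K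
  /-- Loomis-Whitney: near-equality in all the intervals of the window -/
  lw : ∀ i j, s - w ≤ 2 * i → i ≤ j → 2 * j ≤ s → |3 * ∑ c ∈ Ico i j, tc F c - F.S.hc (bl F (2 * i)) (bl F (2 * j))| ≤ η * w / K
  /-- many directions at the cells, at all resolutions -/
  dir : ∀ d, d ≤ K → 2 / 3 * d / K - η * w / K ≤ F.S.hc (F.Y d) F.x

/-- [PAIR] there is a good window -/
def StPAIR : Prop := ∀ η : ℝ, 0 < η → ∃ (h κ : ℝ) (K0 : ℕ), 0 < h ∧ 0 < κ ∧ ∀ c1 : ℝ, 0 < c1 →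
  ∀ (K : ℕ) (F : Flg K), K0 ≤ K → TGP F c1 κ → ∃ (s w : ℕ) (ρ : ℝ), Win F η h ρ s w

/-- flat version: upper bounds are counts, lower bounds are uniform -/
structure TGX (c1 κ : ℝ) : Prop extends TGP F c1 κ where
  /-- balls in balls -/
  cb : ∀ s s', s ≤ s' → s' ≤ 2 * K → Cnt F.S (bl F s) (bl F s') (F.S.hc (bl F s) (bl F s') + κ)
  /-- projections -/
  cp : ∀ s w, w ≤ s → w ≤ K → s + w ≤ 2 * K → Cnt F.S (pj F s w) (Sys.pr (bl F (s + w)) (F.Y w))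
    (F.S.hc (pj F s w) (Sys.pr (bl F (s + w)) (F.Y w)) + κ)
  /-- directions in balls -/
  cd : ∀ d s, d ≤ K → s ≤ 2 * K → Cnt F.S (F.Y d) (bl F s) (F.S.hc (F.Y d) (bl F s) + κ)
  /-- balls have no atoms -/
  ub : ∀ s, s ≤ 2 * K → Unf F.S (bl F s) (F.S.h (bl F s) - κ)
  /-- balls with directions have no atoms -/
  ud : ∀ d s, d ≤ K → s ≤ 2 * K → Unf F.S (Sys.pr (bl F s) (F.Y d)) (F.S.h (Sys.pr (bl F s) (F.Y d)) - κ)

/-- [WIN] there is no good window -/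
def StWIN : Prop := ∃ η : ℝ, 0 < η ∧ ∀ h : ℝ, 0 < h → ∃ (κ : ℝ) (K0 : ℕ), 0 < κ ∧ ∀ c1 : ℝ, 0 < c1 →
  ∀ (K : ℕ) (F : Flg K), K0 ≤ K → TGX F c1 κ → ∀ (s w : ℕ) (ρ : ℝ), ¬ Win F η h ρ s w

/-- target of the block -/
def StTG' : Prop := ∃ (κ : ℝ) (K0 : ℕ), 0 < κ ∧ ∀ c1 : ℝ, 0 < c1 → ∀ (K : ℕ) (F : Flg K), K0 ≤ K → ¬ TGX F c1 κ

end Vale.Agent.P076.BG
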