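import Vale.Agent.P076.BG.Defs
import Vale.Agent.P122.K931.Zero
import Vale.Agent.P122.H540.Tools

/-!
# P076 / BG : balls, caps and tubes of a system of flags (helper245)
-/

set_option autoImplicit false

namespace Vale.Agent.P076.BG

open Filter Topology Finset Vale.Agent.P127 Vale.Agent.P127.Stk Vale.Agent.P127.U Vale.Agent.P127.U.Sys
  Vale.Agent.P122.C2 Vale.Agent.P122.E Vale.Agent.P076.NS

variable {K : ℕ} (F : Flg K)

theorem K_pos (F : Flg K) : 1 ≤ K := by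
  by_contra h
  have h0 : K = 0 := by omega
  subst h0
  obtain ⟨i, hi⟩ := (F.S.L_pos).exists
  rw [F.L_eq i, zero_mul] at hi
  exact lt_irrefl _ hi

theorem n_pos : ∀ᶠ i in (uf : Filter ℕ), 1 ≤ F.n i := by
  filter_upwards [F.S.L_pos] with i hi
  rw [F.L_eq i] at hi
  exact Nat.pos_of_mul_pos_left hi

theorem fn_bl_x (s : ℕ) : Sys.Fn (bl F s) F.x :=
  Eventually.of_forall fun i ω ω' _ _ e => by
    have e' : F.N 0 i ω = F.N 0 i ω' := e
    show (_, _) = (_, _)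
    rw [e']

theorem fn_bl_bl {s s' : ℕ} (h : s ≤ s') : Sys.Fn (bl F s') (bl F s) :=
  Eventually.of_forall fun i ω ω' _ _ e => by
    have e1 : (F.N 0 i ω).T / 2 ^ (s * F.n i) = (F.N 0 i ω').T / 2 ^ (s * F.n i) := congrArg Prod.fst e
    have e2 : ∀ k, (F.N 0 i ω).o k / 2 ^ (s * F.n i) = (F.N 0 i ω').o k / 2 ^ (s * F.n i) := fun k =>
      congrFun (congrArg Prod.snd e) k
    have hd : (2:ℤ) ^ (s' * F.n i) = 2 ^ (s * F.n i) * 2 ^ ((s' - s) * F.n i) := by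
      rw [← pow_add, ← add_mul]
      congr 2
      omega
    have hp : (0:ℤ) ≤ 2 ^ (s * F.n i) := by positivity
    have key : ∀ a b : ℤ, a / 2 ^ (s * F.n i) = b / 2 ^ (s * F.n i) → a / 2 ^ (s' * F.n i) = b / 2 ^ (s' * F.n i) := by
      intro a b hab
      rw [hd, ← Int.ediv_ediv_of_nonneg hp, ← Int.ediv_ediv_of_nonneg hp, hab]
    refine Prod.ext (key _ _ e1) ?_
    funext k
    exact key _ _ (e2 k)

theorem tame_x : Tame F.x := Vale.Agent.P122.K931.tame_N F (K_pos F) (Nat.zero_le K)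

theorem tame_N {b : ℕ} (hb : b ≤ K) : Tame (F.N b) := Vale.Agent.P122.K931.tame_N F (K_pos F) hb

theorem tame_bl (s : ℕ) : Tame (bl F s) := (tame_x F).mono (fn_bl_x F s)

theorem fn_Y_N (b : ℕ) : Sys.Fn (F.Y b) (F.N b) :=
  Eventually.of_forall fun _ _ _ _ _ e => congrArg Nd.τ e

theorem tame_Y {b : ℕ} (hb : b ≤ K) : Tame (F.Y b) := (tame_N F hb).mono (fn_Y_N F b)

/-- the constant of the geometry -/
noncomputable def cg (F : Flg K) : ℝ := (F.C + 2) * K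

theorem cg_nonneg (F : Flg K) : 0 ≤ cg F := by
  have := Vale.Agent.P122.K931.C_nonneg F
  unfold cg
  positivity

variable {F}

/-- the cap of level `h` is a function of the cap of level `b` -/
theorem Y_eq {h b : ℕ} (hb : h ≤ b) (hK : b ≤ K) {i : ℕ} {ω : F.S.Ω i} (hω : 0 < (F.S.P i).w ω) (k : Fin 2) :
    (F.N h i ω).τ k = (F.N b i ω).τ k / 2 ^ ((b - h) * F.n i) :=
  (Vale.Agent.P122.K931.hg_of F hb hK i ω hω).cap k

theorem fn_Y_Nb {h b : ℕ} (hb : h ≤ b) (hK : b ≤ K) : Sys.Fn (F.Y h) (F.N b) :=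
  Eventually.of_forall fun i ω ω' hω hω' e => by
    have e' : F.N b i ω = F.N b i ω' := e
    show (F.N h i ω).τ = (F.N h i ω').τ
    funext k
    rw [Y_eq hb hK hω k, Y_eq hb hK hω' k, e']

/-- the time block of level `b` -/
theorem T_eq {b : ℕ} (hK : b ≤ K) {i : ℕ} {ω : F.S.Ω i} (hω : 0 < (F.S.P i).w ω) :
    (F.N b i ω).T = (F.N 0 i ω).T / 2 ^ (2 * (b * F.n i)) := by
  have := (Vale.Agent.P122.K931.hg_of F (Nat.zero_le b) hK i ω hω).T
  rwa [Nat.sub_zero] at this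

/-- position of the starting cell on the tube of level `b` -/
theorem pos_le {b : ℕ} (hK : b ≤ K) {i : ℕ} {ω : F.S.Ω i} (hω : 0 < (F.S.P i).w ω) (k : Fin 2) :
    |((F.N 0 i ω).o k : ℝ) - (2 ^ (b * F.n i) * ((F.N b i ω).o k : ℝ) +
      (((F.N 0 i ω).T : ℝ) - 2 ^ (2 * (b * F.n i)) * ((F.N b i ω).T : ℝ)) * F.s i b (F.N b i ω).τ k)| ≤
      cg F * 2 ^ (b * F.n i) := by
  have := (Vale.Agent.P122.K931.hg_of F (Nat.zero_le b) hK i ω hω).pos k
  simp only [zero_mul, mul_zero, pow_zero, one_mul] at this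
  exact this

theorem slope_bd {b : ℕ} (hK : b ≤ K) {i : ℕ} {ω : F.S.Ω i} (hω : 0 < (F.S.P i).w ω) (k : Fin 2) :
    |F.s i b (F.N b i ω).τ k| ≤ 1 :=
  (F.slp i).bd b _ k hK (Vale.Agent.P122.K931.hg_of F (Nat.zero_le b) hK i ω hω).capB

/-- slopes of the levels `h ≤ b` -/
theorem slope_sub {h b : ℕ} (hb : h ≤ b) (hK : b ≤ K) {i : ℕ} {ω : F.S.Ω i} (hω : 0 < (F.S.P i).w ω) (k : Fin 2) :
    |F.s i h (F.N h i ω).τ k - F.s i b (F.N b i ω).τ k| ≤ cg F / 2 ^ (h * F.n i) :=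
  (Vale.Agent.P122.K931.hg_of F hb hK i ω hω).sl k

theorem cap_N {b : ℕ} (hK : b ≤ K) {i : ℕ} {ω : F.S.Ω i} (hω : 0 < (F.S.P i).w ω) :
    Cap (F.n i) b (F.N b i ω).τ :=
  (Vale.Agent.P122.K931.hg_of F (Nat.zero_le b) hK i ω hω).capB

/-- same ball: close -/
theorem bl_close {s : ℕ} {i : ℕ} {ω ω' : F.S.Ω i} (h : bl F s i ω = bl F s i ω') :
    |((F.N 0 i ω).T : ℝ) - (F.N 0 i ω').T| ≤ 2 ^ (s * F.n i) ∧
      ∀ k, |((F.N 0 i ω).o k : ℝ) - (F.N 0 i ω').o k| ≤ 2 ^ (s * F.n i) := by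
  have e1 : (F.N 0 i ω).T / 2 ^ (s * F.n i) = (F.N 0 i ω').T / 2 ^ (s * F.n i) := congrArg Prod.fst h
  have e2 : ∀ k, (F.N 0 i ω).o k / 2 ^ (s * F.n i) = (F.N 0 i ω').o k / 2 ^ (s * F.n i) := fun k =>
    congrFun (congrArg Prod.snd h) k
  have key : ∀ a b : ℤ, a / 2 ^ (s * F.n i) = b / 2 ^ (s * F.n i) → |(a:ℝ) - b| ≤ 2 ^ (s * F.n i) := by
    intro a b hab
    have := Vale.Agent.P122.K931.close_of_ediv (a := a) (b := b) (N := 2 ^ (s * F.n i)) (by positivity)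
      (by push_cast; exact hab)
    push_cast at this
    exact this
  exact ⟨key _ _ e1, fun k => key _ _ (e2 k)⟩

end Vale.Agent.P076.BG
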