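import Vale.Agent.P122.H540.Tools

/-!
# P076 / BG : two conditionally independent copies and the probability that a discrete time is the same (helper245)
-/

set_option autoImplicit false

namespace Vale.Agent.P076.BG

open Filter Topology Finset Vale.Agent.P127 Vale.Agent.P127.Stk Vale.Agent.P127.U Vale.Agent.P127.U.Sys
  Vale.Agent.P122.C2 Vale.Agent.P122.E

section fin

variable {Ω : Type} [Fintype Ω] {α : Type*}

theorem ex_inv_le (P : Law Ω) (N : Ω → α) (U : Finset α) (hU : ∀ ω, 0 < P.w ω → N ω ∈ U) :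
    P.ex (fun ω => (P.pr N (N ω))⁻¹) ≤ U.card := by
  classical
  rw [P.ex_comp N (fun x => (P.pr N x)⁻¹)]
  have h1 : ∀ x ∈ img N, P.pr N x * (P.pr N x)⁻¹ ≤ if x ∈ U then 1 else 0 := by
    intro x hx
    by_cases h0 : P.pr N x = 0
    · rw [h0, zero_mul]
      split_ifs <;> norm_num
    · rw [mul_inv_cancel₀ h0]
      have : x ∈ U := by
        have h2 : 0 < P.pr N x := lt_of_le_of_ne (P.pr_nonneg N x) (Ne.symm h0)
        unfold Law.pr at h2
        obtain ⟨ω, hω, h3⟩ := Finset.exists_ne_zero_of_sum_ne_zero h2.ne'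
        rw [Finset.mem_filter] at hω
        have h4 : 0 < P.w ω := lt_of_le_of_ne (P.nn ω) (Ne.symm h3)
        rw [← hω.2]
        exact hU ω h4
      rw [if_pos this]
  refine (Finset.sum_le_sum h1).trans ?_
  rw [← Finset.sum_filter, Finset.sum_const, nsmul_eq_mul, mul_one]
  exact_mod_cast Finset.card_le_card fun x hx => (Finset.mem_filter.1 hx).2

theorem pr_le_of_all (P : Law Ω) (X : Ω → α) (p : ℝ) (hp : 0 ≤ p) (h : ∀ ω, P.pr X (X ω) ≤ p) (x : α) :
    P.pr X x ≤ p := by
  classical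
  by_cases hx : ∃ ω, X ω = x
  · obtain ⟨ω, rfl⟩ := hx
    exact h ω
  · have : P.pr X x = 0 := by
      unfold Law.pr
      refine Finset.sum_eq_zero fun ω hω => ?_
      exact absurd ⟨ω, (Finset.mem_filter.1 hω).2⟩ hx
    rw [this]
    exact hp

/-- two copies given `N` : the times are close with small probability -/
theorem near_le (P : Law Ω) (N : Ω → α) (T : Ω → ℤ) (Q : Law (Fin 2 → Ω)) (hQ : ∀ w, Q.w w = cw P N 1 w)
    (U : Finset α) (hU : ∀ ω, 0 < P.w ω → N ω ∈ U) (p : ℝ) (hp : 0 ≤ p)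
    (h : ∀ ω, P.pr (fun ω => (N ω, T ω)) (N ω, T ω) ≤ p) :
    prE Q (fun w => |T (w 0) - T (w 1)| ≤ 1) ≤ 3 * p * U.card := by
  classical
  have hin : ∀ a : Ω, ∑ b : Ω, (if N b = N a ∧ |T a - T b| ≤ 1 then P.w b else 0) ≤ 3 * p := by
    intro a
    have h1 : ∀ b : Ω, (if N b = N a ∧ |T a - T b| ≤ 1 then P.w b else 0) ≤
        ∑ t ∈ ({T a - 1, T a, T a + 1} : Finset ℤ), if (N b, T b) = (N a, t) then P.w b else 0 := by
      intro b
      have hnn : ∀ t ∈ ({T a - 1, T a, T a + 1} : Finset ℤ), (0:ℝ) ≤ if (N b, T b) = (N a, t) then P.w b else 0 := by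
        intro t _
        split_ifs
        · exact P.nn b
        · exact le_rfl
      split_ifs with hc
      · have hm : T b ∈ ({T a - 1, T a, T a + 1} : Finset ℤ) := by
          have := abs_le.1 hc.2
          simp only [Finset.mem_insert, Finset.mem_singleton]
          omega
        have h2 := Finset.single_le_sum hnn hm
        rw [if_pos (by rw [hc.1])] at h2
        exact h2
      · exact Finset.sum_nonneg hnn
    refine (Finset.sum_le_sum fun b _ => h1 b).trans ?_
    rw [Finset.sum_comm]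
    have h2 : ∀ t ∈ ({T a - 1, T a, T a + 1} : Finset ℤ),
        ∑ b : Ω, (if (N b, T b) = (N a, t) then P.w b else 0) ≤ p := by
      intro t _
      have := pr_le_of_all P (fun ω => (N ω, T ω)) p hp h (N a, t)
      unfold Law.pr at this
      rw [Finset.sum_filter] at this
      refine le_trans (le_of_eq (Finset.sum_congr rfl fun b _ => ?_)) this
      by_cases hb : (N b, T b) = (N a, t)
      · rw [if_pos hb, if_pos hb]
      · rw [if_neg hb, if_neg hb]
    refine (Finset.sum_le_sum h2).trans ?_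
    rw [Finset.sum_const, nsmul_eq_mul]
    refine mul_le_mul_of_nonneg_right ?_ hp
    have : ({T a - 1, T a, T a + 1} : Finset ℤ).card ≤ 3 := Finset.card_le_three
    exact_mod_cast this
  have e1 : prE Q (fun w => |T (w 0) - T (w 1)| ≤ 1) =
      ∑ a : Ω, ∑ b : Ω, (P.w a * (P.pr N (N a))⁻¹) * (if N b = N a ∧ |T a - T b| ≤ 1 then P.w b else 0) := by
    have e2 : prE Q (fun w => |T (w 0) - T (w 1)| ≤ 1) =
        ∑ w : Fin 2 → Ω, if |T (w 0) - T (w 1)| ≤ 1 then Q.w w else 0 := by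
      unfold prE
      rw [Finset.sum_filter]
      refine Finset.sum_congr rfl fun w _ => ?_
      by_cases hw : |T (w 0) - T (w 1)| ≤ 1
      · rw [if_pos hw, if_pos hw]
      · rw [if_neg hw, if_neg hw]
    rw [e2, ← (finTwoArrowEquiv Ω).symm.sum_comp, Fintype.sum_prod_type]
    refine Finset.sum_congr rfl fun a _ => Finset.sum_congr rfl fun b _ => ?_
    rw [hQ]
    simp only [finTwoArrowEquiv_symm_apply, Matrix.cons_val_zero, Matrix.cons_val_one, cw]
    by_cases h1 : N b = N a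
    · have h3 : ∀ i : Fin (1 + 1), N ((![a, b] : Fin 2 → Ω) i) = N a := by
        intro i
        fin_cases i
        · rfl
        · exact h1
      rw [if_pos h3, Fin.prod_univ_two]
      simp only [Matrix.cons_val_zero, Matrix.cons_val_one, h1, true_and, pow_one]
      split_ifs
      · rw [div_eq_mul_inv]
        ring
      · rw [mul_zero]
    · have h3 : ¬ ∀ i : Fin (1 + 1), N ((![a, b] : Fin 2 → Ω) i) = N a := fun h => h1 (h 1)
      rw [if_neg h3]
      simp [h1]
  rw [e1]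
  have h3 : ∀ a : Ω, ∑ b : Ω, (P.w a * (P.pr N (N a))⁻¹) * (if N b = N a ∧ |T a - T b| ≤ 1 then P.w b else 0) ≤
      3 * p * (P.w a * (P.pr N (N a))⁻¹) := by
    intro a
    rw [← Finset.mul_sum, mul_comm (3 * p)]
    refine mul_le_mul_of_nonneg_left (hin a) (mul_nonneg (P.nn a) (inv_nonneg.2 (P.pr_nonneg _ _)))
  refine (Finset.sum_le_sum fun a _ => h3 a).trans ?_
  rw [← Finset.mul_sum]
  refine mul_le_mul_of_nonneg_left (ex_inv_le P N U hU) (by positivity)

end fin

/-- two copies of `S`, conditionally independent given `W` -/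
theorem exists_two (S : Sys) {α : Type} (W : S.RV α) : ∃ (S' : Sys) (e0 e1 : Ext S' S),
    (∀ i ω, 0 < (S'.P i).w ω → W i (e1.π i ω) = W i (e0.π i ω)) ∧
    (∀ {β γ : Type} (X : S.RV β) (Y : S.RV γ), S'.hc (e1.pull X) (Sys.pr (e0.pull Y) (e1.pull W)) = S.hc X W) ∧
    (∀ (T : S.RV ℤ) (i : ℕ) (U : Finset α) (p : ℝ), 0 ≤ p → (∀ ω, 0 < (S.P i).w ω → W i ω ∈ U) →
      (∀ ω, (S.P i).pr ((Sys.pr W T) i) ((Sys.pr W T) i ω) ≤ p) →
      prb S' (fun i ω => |T i (e0.π i ω) - T i (e1.π i ω)| ≤ 1) i ≤ 3 * p * U.card) := by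
  choose Q hQ using fun i => Stk.cw_exists (S.P i) (W i) 1
  let S' : Sys := ⟨fun i => Fin (1 + 1) → S.Ω i, fun _ => inferInstance, Q, S.L, S.Ltop⟩
  let e : Fin (1 + 1) → Ext S' S := fun j => ⟨fun i w => w j, rfl, fun i ω => Stk.cw_marg (hQ i) j ω⟩
  refine ⟨S', e 0, e 1, fun i ω hω => (Stk.cw_supp (hQ i) hω).1 1, ?_, ?_⟩
  · intro β γ X Y
    refine ulim_congr (Eventually.of_forall fun i => ?_)
    have h1 := Stk.cw_indep (hQ i) 1 (X i) (fun w => Y i (w 0)) (fun w w' h => by
      show Y i (w 0) = Y i (w' 0)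
      rw [h 0 (by decide)])
    show Stk.hc (Q i) _ _ / S.nm i = _
    rw [← h1]
    rfl
  · intro T i U p hp hU h
    rw [Vale.Agent.P122.H540.prb_eq]
    exact near_le (S.P i) (W i) (T i) (Q i) (hQ i) U hU p hp h

end Vale.Agent.P076.BG
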