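import Vale.Agent.P076.BG.Flags
import Vale.Agent.P076.BG.Two

/-!
# P076 / BG : pair counting (helper245)

`stPJ : StPJ` : two cells on the same tube of level `b`, seen at the scale `2 b - h`, determine the cap of level `h` up to
`4 r n` bits, if their times are at distance `2 ^ (2 (b - r) n)`.
-/

set_option autoImplicit false

namespace Vale.Agent.P076.BG

open Filter Topology Finset Vale.Agent.P127 Vale.Agent.P127.Stk Vale.Agent.P127.U Vale.Agent.P127.U.Sys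
  Vale.Agent.P122.C2 Vale.Agent.P122.E Vale.Agent.P076.NS

theorem far_real {c A E R δ δ' D D' s s' : ℝ} (hc : 0 ≤ c) (hAE : A ≤ E) (h1 : |D - δ * s| ≤ 2 * c * A)
    (h2 : |D' - δ' * s'| ≤ 2 * c * A) (h3 : |δ - δ'| ≤ 2 * E) (h4 : |D - D'| ≤ 2 * E) (h5 : |s'| ≤ 1) (hE : 0 ≤ E)
    (h6 : R ≤ |δ|) : |s - s'| * R ≤ (4 * c + 4) * E := by
  have e1 : δ * (s' - s) = -(D' - δ' * s') + (δ - δ') * s' + -(D - D') + (D - δ * s) := by ring
  have e2 : |δ| * |s' - s| ≤ |D' - δ' * s'| + |δ - δ'| * |s'| + |D - D'| + |D - δ * s| := by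
    rw [← abs_mul, e1]
    refine (abs_add_le _ _).trans (add_le_add ((abs_add_le _ _).trans (add_le_add ((abs_add_le _ _).trans
      (add_le_add ?_ ?_)) ?_)) le_rfl)
    · rw [abs_neg]
    · rw [abs_mul]
    · rw [abs_neg]
  have e3 : |δ - δ'| * |s'| ≤ 2 * E * 1 := mul_le_mul h3 h5 (abs_nonneg _) (by positivity)
  have e4 : |s - s'| * R ≤ |s - s'| * |δ| := mul_le_mul_of_nonneg_left h6 (abs_nonneg _)
  rw [abs_sub_comm s s'] at e4 ⊢
  have e5 : 2 * c * A ≤ 2 * c * E := mul_le_mul_of_nonneg_left hAE (by positivity)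
  nlinarith

theorem div_close_of_lt {a b : ℤ} {N : ℤ} (hN : 0 < N) (h : |a - b| < N) : |a / N - b / N| ≤ 1 := by
  have h1 := abs_lt.1 h
  have key : ∀ x y : ℤ, x < y + N → x / N ≤ y / N + 1 := by
    intro x y hxy
    have h0 := Int.ediv_le_ediv hN hxy.le
    have h1 := Int.add_mul_ediv_right y 1 hN.ne'
    rw [one_mul] at h1
    rwa [h1] at h0
  have h2 := key a b (by linarith)
  have h3 := key b a (by linarith)
  rw [abs_le]
  constructor <;> linarith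

section two

variable {K : ℕ} {F : Flg K} {S' : Sys} {e0 e1 : Ext S' F.S} {b : ℕ}

/-- the ball of the other copy -/
theorem zero_ball (hb : b ≤ K) (hW : ∀ i ω, 0 < (S'.P i).w ω → F.N b i (e1.π i ω) = F.N b i (e0.π i ω)) :
    S'.hc (e1.pull (bl F (2 * b))) (e0.pull (bl F (2 * b))) = 0 := by
  have hcl : ∀ i ω, 0 < (S'.P i).w ω → (bl F (2 * b) i (e1.π i ω)).1 = (bl F (2 * b) i (e0.π i ω)).1 ∧
      ∀ k, |(bl F (2 * b) i (e1.π i ω)).2 k - (bl F (2 * b) i (e0.π i ω)).2 k| ≤ (⌈1 + 2 * cg F⌉₊ : ℤ) + 1 := by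
    intro i ω hω
    have p0 := e0.w_pos i hω
    have p1 := e1.w_pos i hω
    have hN := hW i ω hω
    have hT : (F.N 0 i (e1.π i ω)).T / 2 ^ (2 * b * F.n i) = (F.N 0 i (e0.π i ω)).T / 2 ^ (2 * b * F.n i) := by
      have t0 := T_eq hb p0
      have t1 := T_eq hb p1
      rw [← mul_assoc] at t0 t1
      rw [← t0, ← t1, hN]
    refine ⟨hT, fun k => ?_⟩
    have c1 := pos_le hb p1 k
    have c0 := pos_le hb p0 k
    rw [hN] at c1
    have s0 := slope_bd hb p0 k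
    have hTc : |((F.N 0 i (e1.π i ω)).T : ℝ) - (F.N 0 i (e0.π i ω)).T| ≤ 2 ^ (2 * b * F.n i) := by
      have := Vale.Agent.P122.K931.close_of_ediv (a := (F.N 0 i (e1.π i ω)).T) (b := (F.N 0 i (e0.π i ω)).T)
        (N := 2 ^ (2 * b * F.n i)) (by positivity) (by push_cast; exact hT)
      push_cast at this
      exact this
    have hle : (2:ℝ) ^ (b * F.n i) ≤ 2 ^ (2 * b * F.n i) :=
      pow_le_pow_right₀ (by norm_num) (Nat.mul_le_mul_right _ (by omega))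
    have hcg := cg_nonneg F
    have hmain : |((F.N 0 i (e1.π i ω)).o k : ℝ) - (F.N 0 i (e0.π i ω)).o k| ≤
        (⌈1 + 2 * cg F⌉₊ : ℝ) * 2 ^ (2 * b * F.n i) := by
      have e : ((F.N 0 i (e1.π i ω)).o k : ℝ) - (F.N 0 i (e0.π i ω)).o k =
          (((F.N 0 i (e1.π i ω)).o k : ℝ) - (2 ^ (b * F.n i) * ((F.N b i (e0.π i ω)).o k : ℝ) +
            (((F.N 0 i (e1.π i ω)).T : ℝ) - 2 ^ (2 * (b * F.n i)) * ((F.N b i (e0.π i ω)).T : ℝ)) *
              F.s i b (F.N b i (e0.π i ω)).τ k)) -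
          (((F.N 0 i (e0.π i ω)).o k : ℝ) - (2 ^ (b * F.n i) * ((F.N b i (e0.π i ω)).o k : ℝ) +
            (((F.N 0 i (e0.π i ω)).T : ℝ) - 2 ^ (2 * (b * F.n i)) * ((F.N b i (e0.π i ω)).T : ℝ)) *
              F.s i b (F.N b i (e0.π i ω)).τ k)) +
          (((F.N 0 i (e1.π i ω)).T : ℝ) - (F.N 0 i (e0.π i ω)).T) * F.s i b (F.N b i (e0.π i ω)).τ k := by ring
      rw [e]
      refine (abs_add_le _ _).trans ?_
      refine (add_le_add (abs_sub _ _) le_rfl).trans ?_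
      have h3 : |(((F.N 0 i (e1.π i ω)).T : ℝ) - (F.N 0 i (e0.π i ω)).T) * F.s i b (F.N b i (e0.π i ω)).τ k| ≤
          2 ^ (2 * b * F.n i) * 1 := by
        rw [abs_mul]
        exact mul_le_mul hTc s0 (abs_nonneg _) (by positivity)
      have h4 : 1 + 2 * cg F ≤ (⌈1 + 2 * cg F⌉₊ : ℝ) := Nat.le_ceil _
      have h5 : (1 + 2 * cg F) * 2 ^ (2 * b * F.n i) ≤ (⌈1 + 2 * cg F⌉₊ : ℝ) * 2 ^ (2 * b * F.n i) :=
        mul_le_mul_of_nonneg_right h4 (by positivity)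
      have h6 : cg F * (2:ℝ) ^ (b * F.n i) ≤ cg F * 2 ^ (2 * b * F.n i) := mul_le_mul_of_nonneg_left hle hcg
      linarith
    have := Vale.Agent.P122.K931.ediv_close (a := (F.N 0 i (e1.π i ω)).o k) (b := (F.N 0 i (e0.π i ω)).o k)
      (N := 2 ^ (2 * b * F.n i)) (C := ⌈1 + 2 * cg F⌉₊) (by positivity) (by push_cast; exact hmain)
    push_cast at this
    exact this
  have hx : Tame (fun i ω => (bl F (2 * b) i (e1.π i ω)).1 : S'.RV ℤ) :=
    (e1.tame (tame_bl F (2 * b))).mono (Eventually.of_forall fun _ _ _ _ _ e => congrArg Prod.fst e)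
  have hy : Tame (fun i ω => (bl F (2 * b) i (e1.π i ω)).2 : S'.RV Z2) :=
    (e1.tame (tame_bl F (2 * b))).mono (Eventually.of_forall fun _ _ _ _ _ e => congrArg Prod.snd e)
  have h1 : S'.hc (fun i ω => (bl F (2 * b) i (e1.π i ω)).1 : S'.RV ℤ) (e0.pull (bl F (2 * b))) = 0 := by
    refine hc_fn (Eventually.of_forall fun i ω ω' hω hω' e => ?_)
    have e' : bl F (2 * b) i (e0.π i ω) = bl F (2 * b) i (e0.π i ω') := e
    show (bl F (2 * b) i (e1.π i ω)).1 = (bl F (2 * b) i (e1.π i ω')).1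
    rw [(hcl i ω hω).1, (hcl i ω' hω').1, e']
  have h2 : S'.hc (fun i ω => (bl F (2 * b) i (e1.π i ω)).2 : S'.RV Z2) (e0.pull (bl F (2 * b))) = 0 := by
    refine Vale.Agent.P122.K931.zero_vec (2 * (⌈1 + 2 * cg F⌉₊ + 1)) _ _
      (Eventually.of_forall fun i ω ω' hω hω' e k => ?_)
    have e' : bl F (2 * b) i (e0.π i ω') = bl F (2 * b) i (e0.π i ω) := e
    have a1 := (hcl i ω hω).2 k
    have a2 := (hcl i ω' hω').2 k
    rw [e'] at a2
    rw [abs_le] at a1 a2 ⊢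
    push_cast
    constructor <;> linarith [a1.1, a1.2, a2.1, a2.2]
  have h3 : S'.hc (e1.pull (bl F (2 * b))) (e0.pull (bl F (2 * b))) =
      S'.hc (Sys.pr (fun i ω => (bl F (2 * b) i (e1.π i ω)).1 : S'.RV ℤ)
        (fun i ω => (bl F (2 * b) i (e1.π i ω)).2 : S'.RV Z2)) (e0.pull (bl F (2 * b))) := rfl
  rw [h3, hc_pair hx hy, h1, zero_add]
  refine le_antisymm ?_ (hc_nonneg hy _)
  rw [← h2]
  exact hc_le_cond hy _ _

/-- the caps of level `h` of two far pairs with the same balls -/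
theorem far_cap {h r : ℕ} (hb : b ≤ K) (hh : h ≤ b) (hr : 2 * r ≤ h)
    (hW : ∀ i ω, 0 < (S'.P i).w ω → F.N b i (e1.π i ω) = F.N b i (e0.π i ω)) {i : ℕ} {v w : S'.Ω i}
    (hv : 0 < (S'.P i).w v) (hw : 0 < (S'.P i).w w)
    (hfar : ¬ |F.T (b - r) i (e0.π i w) - F.T (b - r) i (e1.π i w)| ≤ 1)
    (h0 : bl F (2 * b - h) i (e0.π i v) = bl F (2 * b - h) i (e0.π i w))
    (h1 : bl F (2 * b - h) i (e1.π i v) = bl F (2 * b - h) i (e1.π i w)) (k : Fin 2) :
    |((F.N h i (e0.π i v)).τ k : ℝ) - (F.N h i (e0.π i w)).τ k| ≤ F.C * (12 * cg F + 9) * 2 ^ (2 * r * F.n i) := by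
  have v0 := e0.w_pos i hv
  have v1 := e1.w_pos i hv
  have w0 := e0.w_pos i hw
  have w1 := e1.w_pos i hw
  have hNv := hW i v hv
  have hNw := hW i w hw
  have hcg := cg_nonneg F
  have hC := Vale.Agent.P122.K931.C_nonneg F
  set n := F.n i with hn
  -- the distance of the times
  have hR : (2:ℝ) ^ (2 * (b - r) * n) ≤ |((F.N 0 i (e0.π i w)).T : ℝ) - (F.N 0 i (e1.π i w)).T| := by
    by_contra hcon
    push Not at hcon
    apply hfar
    have hbr : b - r ≤ K := by omega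
    have t0 : (F.N (b - r) i (e0.π i w)).T = (F.N 0 i (e0.π i w)).T / 2 ^ (2 * (b - r) * n) := by
      rw [T_eq hbr w0, mul_assoc]
    have t1 : (F.N (b - r) i (e1.π i w)).T = (F.N 0 i (e1.π i w)).T / 2 ^ (2 * (b - r) * n) := by
      rw [T_eq hbr w1, mul_assoc]
    show |(F.N (b - r) i (e0.π i w)).T - (F.N (b - r) i (e1.π i w)).T| ≤ 1
    rw [t0, t1]
    refine div_close_of_lt (by positivity) ?_
    have hcon' : ((|(F.N 0 i (e0.π i w)).T - (F.N 0 i (e1.π i w)).T| : ℤ) : ℝ) < ((2 ^ (2 * (b - r) * n) : ℤ) : ℝ) := by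
      push_cast
      exact hcon
    exact_mod_cast hcon'
  -- the slopes of level `b`
  have hsb : ∀ k, |F.s i b (F.N b i (e0.π i v)).τ k - F.s i b (F.N b i (e0.π i w)).τ k| * 2 ^ (h * n) ≤
      (4 * cg F + 4) * 2 ^ (2 * r * n) := by
    intro k
    have pv0 := pos_le hb v0 k
    have pv1 := pos_le hb v1 k
    have pw0 := pos_le hb w0 k
    have pw1 := pos_le hb w1 k
    rw [hNv] at pv1
    rw [hNw] at pw1
    have c0 := bl_close h0
    have c1 := bl_close h1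
    have key := far_real (c := cg F) (A := 2 ^ (b * n)) (E := 2 ^ ((2 * b - h) * n)) (R := 2 ^ (2 * (b - r) * n))
      (δ := ((F.N 0 i (e0.π i w)).T : ℝ) - (F.N 0 i (e1.π i w)).T)
      (δ' := ((F.N 0 i (e0.π i v)).T : ℝ) - (F.N 0 i (e1.π i v)).T)
      (D := ((F.N 0 i (e0.π i w)).o k : ℝ) - (F.N 0 i (e1.π i w)).o k)
      (D' := ((F.N 0 i (e0.π i v)).o k : ℝ) - (F.N 0 i (e1.π i v)).o k)
      (s := F.s i b (F.N b i (e0.π i w)).τ k) (s' := F.s i b (F.N b i (e0.π i v)).τ k) hcg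
      (pow_le_pow_right₀ (by norm_num) (Nat.mul_le_mul_right _ (by omega))) ?_ ?_ ?_ ?_ (slope_bd hb v0 k)
      (by positivity) hR
    · rw [abs_sub_comm] at key
      have e1 : (2:ℝ) ^ ((2 * b - h) * n) * 2 ^ (h * n) = 2 ^ (2 * (b - r) * n) * 2 ^ (2 * r * n) := by
        rw [← pow_add, ← pow_add, ← add_mul, ← add_mul]
        congr 2
        omega
      have hp : (0:ℝ) < 2 ^ (2 * (b - r) * n) := by positivity
      have hq : (0:ℝ) ≤ 2 ^ (h * n) := by positivity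
      have key2 := mul_le_mul_of_nonneg_right key hq
      have e2 : (4 * cg F + 4) * (2:ℝ) ^ ((2 * b - h) * n) * 2 ^ (h * n) =
          2 ^ (2 * (b - r) * n) * ((4 * cg F + 4) * 2 ^ (2 * r * n)) := by
        rw [mul_assoc, e1]
        ring
      have e3 : |F.s i b (F.N b i (e0.π i v)).τ k - F.s i b (F.N b i (e0.π i w)).τ k| * (2:ℝ) ^ (2 * (b - r) * n) *
          2 ^ (h * n) = 2 ^ (2 * (b - r) * n) *
            (|F.s i b (F.N b i (e0.π i v)).τ k - F.s i b (F.N b i (e0.π i w)).τ k| * 2 ^ (h * n)) := by ring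
      rw [e2, e3] at key2
      exact le_of_mul_le_mul_left key2 hp
    · have e : ((F.N 0 i (e0.π i w)).o k : ℝ) - (F.N 0 i (e1.π i w)).o k -
          (((F.N 0 i (e0.π i w)).T : ℝ) - (F.N 0 i (e1.π i w)).T) * F.s i b (F.N b i (e0.π i w)).τ k =
          (((F.N 0 i (e0.π i w)).o k : ℝ) - (2 ^ (b * n) * ((F.N b i (e0.π i w)).o k : ℝ) +
            (((F.N 0 i (e0.π i w)).T : ℝ) - 2 ^ (2 * (b * n)) * ((F.N b i (e0.π i w)).T : ℝ)) *
              F.s i b (F.N b i (e0.π i w)).τ k)) -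
          (((F.N 0 i (e1.π i w)).o k : ℝ) - (2 ^ (b * n) * ((F.N b i (e0.π i w)).o k : ℝ) +
            (((F.N 0 i (e1.π i w)).T : ℝ) - 2 ^ (2 * (b * n)) * ((F.N b i (e0.π i w)).T : ℝ)) *
              F.s i b (F.N b i (e0.π i w)).τ k)) := by ring
      rw [e]
      refine (abs_sub _ _).trans ?_
      linarith
    · have e : ((F.N 0 i (e0.π i v)).o k : ℝ) - (F.N 0 i (e1.π i v)).o k -
          (((F.N 0 i (e0.π i v)).T : ℝ) - (F.N 0 i (e1.π i v)).T) * F.s i b (F.N b i (e0.π i v)).τ k =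
          (((F.N 0 i (e0.π i v)).o k : ℝ) - (2 ^ (b * n) * ((F.N b i (e0.π i v)).o k : ℝ) +
            (((F.N 0 i (e0.π i v)).T : ℝ) - 2 ^ (2 * (b * n)) * ((F.N b i (e0.π i v)).T : ℝ)) *
              F.s i b (F.N b i (e0.π i v)).τ k)) -
          (((F.N 0 i (e1.π i v)).o k : ℝ) - (2 ^ (b * n) * ((F.N b i (e0.π i v)).o k : ℝ) +
            (((F.N 0 i (e1.π i v)).T : ℝ) - 2 ^ (2 * (b * n)) * ((F.N b i (e0.π i v)).T : ℝ)) *
              F.s i b (F.N b i (e0.π i v)).τ k)) := by ring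
      rw [e]
      refine (abs_sub _ _).trans ?_
      linarith
    · have e : ((F.N 0 i (e0.π i w)).T : ℝ) - (F.N 0 i (e1.π i w)).T -
          (((F.N 0 i (e0.π i v)).T : ℝ) - (F.N 0 i (e1.π i v)).T) =
          -(((F.N 0 i (e0.π i v)).T : ℝ) - (F.N 0 i (e0.π i w)).T) +
            (((F.N 0 i (e1.π i v)).T : ℝ) - (F.N 0 i (e1.π i w)).T) := by ring
      rw [e]
      refine (abs_add_le _ _).trans ?_
      rw [abs_neg]
      linarith [c0.1, c1.1]
    · have e : ((F.N 0 i (e0.π i w)).o k : ℝ) - (F.N 0 i (e1.π i w)).o k -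
          (((F.N 0 i (e0.π i v)).o k : ℝ) - (F.N 0 i (e1.π i v)).o k) =
          -(((F.N 0 i (e0.π i v)).o k : ℝ) - (F.N 0 i (e0.π i w)).o k) +
            (((F.N 0 i (e1.π i v)).o k : ℝ) - (F.N 0 i (e1.π i w)).o k) := by ring
      rw [e]
      refine (abs_add_le _ _).trans ?_
      rw [abs_neg]
      linarith [c0.2 k, c1.2 k]
  -- the slopes of level `h`
  have hsh : ∀ k, |F.s i h (F.N h i (e0.π i v)).τ k - F.s i h (F.N h i (e0.π i w)).τ k| * 2 ^ (h * n) ≤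
      (6 * cg F + 4) * 2 ^ (2 * r * n) := by
    intro k
    have a1 := slope_sub hh hb v0 k
    have a2 := slope_sub hh hb w0 k
    have hp : (0:ℝ) < 2 ^ (h * n) := by positivity
    rw [le_div_iff₀ hp] at a1 a2
    have e : F.s i h (F.N h i (e0.π i v)).τ k - F.s i h (F.N h i (e0.π i w)).τ k =
        (F.s i h (F.N h i (e0.π i v)).τ k - F.s i b (F.N b i (e0.π i v)).τ k) +
        (F.s i b (F.N b i (e0.π i v)).τ k - F.s i b (F.N b i (e0.π i w)).τ k) -
        (F.s i h (F.N h i (e0.π i w)).τ k - F.s i b (F.N b i (e0.π i w)).τ k) := by ring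
    have e2 : |F.s i h (F.N h i (e0.π i v)).τ k - F.s i h (F.N h i (e0.π i w)).τ k| ≤
        |F.s i h (F.N h i (e0.π i v)).τ k - F.s i b (F.N b i (e0.π i v)).τ k| +
        |F.s i b (F.N b i (e0.π i v)).τ k - F.s i b (F.N b i (e0.π i w)).τ k| +
        |F.s i h (F.N h i (e0.π i w)).τ k - F.s i b (F.N b i (e0.π i w)).τ k| := by
      rw [e]
      exact (abs_sub _ _).trans (add_le_add (abs_add_le _ _) le_rfl)
    have e3 := mul_le_mul_of_nonneg_right e2 hp.le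
    have e4 := hsb k
    have e5 : (1:ℝ) ≤ 2 ^ (2 * r * n) := one_le_pow₀ (by norm_num)
    have e6 : cg F ≤ cg F * 2 ^ (2 * r * n) := le_mul_of_one_le_right hcg e5
    nlinarith
  -- the caps
  have hcol := (F.slp i).colip h _ _ (hh.trans hb) (cap_N (hh.trans hb) v0) (cap_N (hh.trans hb) w0)
  have e5 : (1:ℝ) ≤ 2 ^ (2 * r * n) := one_le_pow₀ (by norm_num)
  have b0 := hsh 0
  have b1 := hsh 1
  have hfin : |((F.N h i (e0.π i v)).τ 0 : ℝ) - (F.N h i (e0.π i w)).τ 0| +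
      |((F.N h i (e0.π i v)).τ 1 : ℝ) - (F.N h i (e0.π i w)).τ 1| ≤ F.C * (12 * cg F + 9) * 2 ^ (2 * r * n) := by
    refine hcol.trans ?_
    rw [mul_assoc]
    refine mul_le_mul_of_nonneg_left ?_ hC
    rw [← hn, mul_add]
    linarith [mul_comm ((2:ℝ) ^ (h * n)) |F.s i h (F.N h i (e0.π i v)).τ 0 - F.s i h (F.N h i (e0.π i w)).τ 0|,
      mul_comm ((2:ℝ) ^ (h * n)) |F.s i h (F.N h i (e0.π i v)).τ 1 - F.s i h (F.N h i (e0.π i w)).τ 1|]
  have q0 := abs_nonneg (((F.N h i (e0.π i v)).τ 0 : ℝ) - (F.N h i (e0.π i w)).τ 0)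
  have q1 := abs_nonneg (((F.N h i (e0.π i v)).τ 1 : ℝ) - (F.N h i (e0.π i w)).τ 1)
  fin_cases k
  · show |((F.N h i (e0.π i v)).τ 0 : ℝ) - (F.N h i (e0.π i w)).τ 0| ≤ _
    linarith
  · show |((F.N h i (e0.π i v)).τ 1 : ℝ) - (F.N h i (e0.π i w)).τ 1| ≤ _
    linarith

end two

end Vale.Agent.P076.BG
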