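import Vale.Agent.P076.BG.PJ

/-!
# P076 / BG : pair counting, conclusion (helper245)

`stPJ : StPJ`.
-/

set_option autoImplicit false

namespace Vale.Agent.P076.BG

open Filter Topology Finset Vale.Agent.P127 Vale.Agent.P127.Stk Vale.Agent.P127.U Vale.Agent.P127.U.Sys
  Vale.Agent.P122.C2 Vale.Agent.P122.E Vale.Agent.P076.NS

theorem rpow_tend {τ : ℝ} (hτ : 0 < τ) (S : Sys) : Tendsto (fun i => (2:ℝ) ^ (τ * S.L i)) (uf : Filter ℕ) atTop := by
  have hL : Tendsto (fun i => (S.L i : ℝ)) (uf : Filter ℕ) atTop := tendsto_natCast_atTop_atTop.comp S.Ltop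
  have e : (fun i => (2 : ℝ) ^ (τ * S.L i)) = fun i => Real.exp (Real.log 2 * τ * S.L i) := by
    funext i
    rw [Real.rpow_def_of_pos (by norm_num)]
    congr 1
    ring
  rw [e]
  exact Real.tendsto_exp_atTop.comp (hL.const_mul_atTop (mul_pos (Real.log_pos (by norm_num)) hτ))

section two

variable {K : ℕ} {F : Flg K} {S' : Sys} {e0 e1 : Ext S' F.S} {b : ℕ}

/-- the cap given the two balls -/
theorem cap_le {h r : ℕ} (hb : b ≤ K) (hh : h ≤ b) (hr : 2 * r ≤ h)
    (hW : ∀ i ω, 0 < (S'.P i).w ω → F.N b i (e1.π i ω) = F.N b i (e0.π i ω))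
    (hE : Rare S' (fun i ω => |F.T (b - r) i (e0.π i ω) - F.T (b - r) i (e1.π i ω)| ≤ 1)) :
    S'.hc (e0.pull (F.Y h)) (Sys.pr (e1.pull (bl F (2 * b - h))) (e0.pull (bl F (2 * b - h)))) ≤ 4 * r / K := by
  classical
  have hhK : h ≤ K := hh.trans hb
  have hcg := cg_nonneg F
  have hC := Vale.Agent.P122.K931.C_nonneg F
  have hK : (0:ℝ) < K := by exact_mod_cast K_pos F
  set A : ℕ := ⌈F.C * (12 * cg F + 9)⌉₊ with hA
  have hlog2 : 0 < Real.log 2 := Real.log_pos (by norm_num)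
  refine Vale.Agent.P122.H540.hc_le_rare (e0.tame (tame_Y F hhK)) hE (4 * r / K)
    (Real.log 2 + Real.log (((2 * A + 1) ^ 2 : ℕ) : ℝ)) (2 * h / K) (by positivity) ?_
  refine Eventually.of_forall fun i => ?_
  set n := F.n i with hn
  have hcard : ∀ (c : ℤ) (M : ℕ), (Finset.Icc (c - M) (c + M)).card = 2 * M + 1 := by
    intro c M
    rw [Int.card_Icc]
    omega
  have hex := Stk.hc_le_exc (S'.P i) (fun ω => |F.T (b - r) i (e0.π i ω) - F.T (b - r) i (e1.π i ω)| ≤ 1)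
    (e0.pull (F.Y h) i) ((Sys.pr (e1.pull (bl F (2 * b - h))) (e0.pull (bl F (2 * b - h)))) i)
    (2 ^ (2 * h * n)) ((2 * (A * 2 ^ (2 * r * n)) + 1) ^ 2) (Nat.one_le_pow _ _ (by omega)) ?_ ?_
  · have hpe := Vale.Agent.P122.H540.prb_eq S'
      (fun i ω => |F.T (b - r) i (e0.π i ω) - F.T (b - r) i (e1.π i ω)| ≤ 1) i
    rw [← hpe] at hex
    refine hex.trans ?_
    have hnm : S'.nm i = K * n * Real.log 2 := by
      unfold Sys.nm
      rw [e0.L_eq, F.L_eq]
      push_cast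
      ring
    have l1 : Real.log ((((2 * (A * 2 ^ (2 * r * n)) + 1) ^ 2 : ℕ)) : ℝ) ≤
        Real.log (((2 * A + 1) ^ 2 : ℕ) : ℝ) + 4 * r / K * S'.nm i := by
      have e1 : 4 * (r:ℝ) / K * S'.nm i = Real.log ((2:ℝ) ^ (4 * r * n)) := by
        rw [hnm, Real.log_pow]
        push_cast
        field_simp
      rw [e1, ← Real.log_mul (by positivity) (by positivity)]
      refine Real.log_le_log (by positivity) ?_
      have e2 : (2:ℝ) ^ (4 * r * n) = (2 ^ (2 * r * n)) ^ 2 := by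
        rw [← pow_mul]
        congr 1
        ring
      rw [e2]
      push_cast
      rw [← mul_pow]
      refine pow_le_pow_left₀ (by positivity) ?_ 2
      have e3 : (1:ℝ) ≤ 2 ^ (2 * r * n) := one_le_pow₀ (by norm_num)
      nlinarith
    have l2 : Real.log ((2 ^ (2 * h * n) : ℕ) : ℝ) = 2 * h / K * S'.nm i := by
      rw [hnm]
      push_cast
      rw [Real.log_pow]
      push_cast
      field_simp
    rw [l2]
    linarith
  · refine ⟨Fintype.piFinset fun _ => Finset.Ico (0:ℤ) (2 ^ (h * n)), ?_, fun w hw => ?_⟩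
    · rw [Fintype.card_piFinset]
      simp only [Int.card_Ico, sub_zero, Finset.prod_const, Finset.card_univ, Fintype.card_fin]
      rw [Vale.Agent.P127.Stk.toNat_pow_aux, ← pow_mul]
      exact pow_le_pow_right₀ (by norm_num) (by nlinarith)
    · rw [Fintype.mem_piFinset]
      intro k
      have := cap_N hhK (e0.w_pos i hw) k
      rw [Finset.mem_Ico]
      exact this
  · intro w hw hnw
    refine ⟨Fintype.piFinset fun k => Finset.Icc ((F.N h i (e0.π i w)).τ k - ((A * 2 ^ (2 * r * n) : ℕ) : ℤ))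
      ((F.N h i (e0.π i w)).τ k + ((A * 2 ^ (2 * r * n) : ℕ) : ℤ)), ?_, fun v hv _ hvw => ?_⟩
    · rw [Fintype.card_piFinset]
      simp only [hcard, Finset.prod_const, Finset.card_univ, Fintype.card_fin]
      exact le_rfl
    · rw [Fintype.mem_piFinset]
      intro k
      have g1 : bl F (2 * b - h) i (e1.π i v) = bl F (2 * b - h) i (e1.π i w) := congrArg Prod.fst hvw
      have g0 : bl F (2 * b - h) i (e0.π i v) = bl F (2 * b - h) i (e0.π i w) := congrArg Prod.snd hvw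
      have g2 := far_cap hb hh hr hW hv hw hnw g0 g1 k
      have g3 : F.C * (12 * cg F + 9) * 2 ^ (2 * r * F.n i) ≤ (A:ℝ) * 2 ^ (2 * r * n) :=
        mul_le_mul_of_nonneg_right (Nat.le_ceil _) (by positivity)
      have g4 : |(F.N h i (e0.π i v)).τ k - (F.N h i (e0.π i w)).τ k| ≤ ((A * 2 ^ (2 * r * n) : ℕ) : ℤ) := by
        have g5 : ((|(F.N h i (e0.π i v)).τ k - (F.N h i (e0.π i w)).τ k| : ℤ) : ℝ) ≤
            (((A * 2 ^ (2 * r * n) : ℕ) : ℤ) : ℝ) := by
          push_cast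
          exact g2.trans g3
        exact_mod_cast g5
      rw [Finset.mem_Icc]
      have g6 := abs_le.1 g4
      show _ ≤ (F.N h i (e0.π i v)).τ k ∧ (F.N h i (e0.π i v)).τ k ≤ _
      constructor <;> linarith [g6.1, g6.2]

end two

/-- **pair counting** -/
theorem stPJ : StPJ := by
  intro K F b h r H τ hb hh hr hτ hcnt hunf
  have hhK : h ≤ K := hh.trans hb
  obtain ⟨S', e0, e1, hW, hind, hnear⟩ := exists_two F.S (F.N b)
  -- the times are far
  have hE : Rare S' (fun i ω => |F.T (b - r) i (e0.π i ω) - F.T (b - r) i (e1.π i ω)| ≤ 1) := by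
    refine ⟨τ / 2, by positivity, ?_⟩
    filter_upwards [hcnt (τ / 8) (by positivity), hunf (τ / 8) (by positivity),
      (rpow_tend (τ := τ / 4) (by positivity) F.S).eventually_ge_atTop 3] with i g1 g2 g3
    obtain ⟨ω0, hω0⟩ := Vale.Agent.P122.H540.exists_pos (F.S.P i)
    obtain ⟨U, hU1, hU2⟩ := g1 ω0 hω0
    have hn := hnear (F.T (b - r)) i U _ (by positivity) (fun ω hω => hU2 ω hω rfl) g2
    refine hn.trans ?_
    have e1 : S'.L i = F.S.L i := by rw [e0.L_eq]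
    rw [e1]
    set L : ℝ := (F.S.L i : ℝ) with hL
    have e2 : (2:ℝ) ^ (-(τ / 2 * L)) = 2 ^ (τ / 4 * L) * (2 ^ ((-(H + τ) + τ / 8) * L) * 2 ^ ((H + τ / 8) * L)) := by
      rw [← Real.rpow_add (by norm_num), ← Real.rpow_add (by norm_num)]
      congr 1
      ring
    rw [e2, mul_assoc 3]
    have e3 : (2:ℝ) ^ ((-(H + τ) + τ / 8) * L) * (U.card : ℝ) ≤
        2 ^ ((-(H + τ) + τ / 8) * L) * 2 ^ ((H + τ / 8) * L) := mul_le_mul_of_nonneg_left hU1 (by positivity)
    have e4 : (0:ℝ) ≤ 2 ^ ((-(H + τ) + τ / 8) * L) * 2 ^ ((H + τ / 8) * L) := by positivity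
    calc 3 * ((2:ℝ) ^ ((-(H + τ) + τ / 8) * L) * (U.card : ℝ)) ≤
          3 * (2 ^ ((-(H + τ) + τ / 8) * L) * 2 ^ ((H + τ / 8) * L)) := by linarith
      _ ≤ 2 ^ (τ / 4 * L) * (2 ^ ((-(H + τ) + τ / 8) * L) * 2 ^ ((H + τ / 8) * L)) :=
          mul_le_mul_of_nonneg_right g3 e4
  have h5 := cap_le hb hh hr hW hE
  have tY : Tame (e0.pull (F.Y h)) := e0.tame (tame_Y F hhK)
  have tP0 : Tame (e0.pull (bl F (2 * b - h))) := e0.tame (tame_bl F _)
  have tP1 : Tame (e1.pull (bl F (2 * b - h))) := e1.tame (tame_bl F _)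
  have tB1 : Tame (e1.pull (bl F (2 * b))) := e1.tame (tame_bl F _)
  -- (1)
  have h1 : F.S.hc (F.Y h) F.x ≤ S'.hc (e0.pull (F.Y h)) (e0.pull (bl F (2 * b - h))) := by
    rw [e0.hc]
    exact hc_mono_right (tame_Y F hhK) (fn_bl_x F _)
  -- (2)
  have h2 : F.S.hc (bl F (2 * b - h)) (Sys.pr (F.N b) (bl F (2 * b))) ≤
      S'.hc (e1.pull (bl F (2 * b - h))) (Sys.pr (e0.pull (F.Y h)) (e0.pull (bl F (2 * b - h)))) := by
    have a1 : F.S.hc (bl F (2 * b - h)) (Sys.pr (F.N b) (bl F (2 * b))) ≤ F.S.hc (bl F (2 * b - h)) (F.N b) :=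
      hc_mono_right (tame_bl F _) (Eventually.of_forall fun _ _ _ _ _ e => congrArg Prod.fst e)
    rw [← hind (bl F (2 * b - h)) (bl F (2 * b - h))] at a1
    refine a1.trans (hc_mono_right tP1 ?_)
    filter_upwards [fn_Y_Nb hh hb (F := F)] with i hi w w' hw hw' e
    have f0 : bl F (2 * b - h) i (e0.π i w) = bl F (2 * b - h) i (e0.π i w') := congrArg Prod.fst e
    have f1 : F.N b i (e1.π i w) = F.N b i (e1.π i w') := congrArg Prod.snd e
    have f2 : F.N b i (e0.π i w) = F.N b i (e0.π i w') := by rw [← hW i w hw, ← hW i w' hw', f1]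
    have f3 : F.Y h i (e0.π i w) = F.Y h i (e0.π i w') := hi _ _ (e0.w_pos i hw) (e0.w_pos i hw') f2
    exact Prod.ext f3 f0
  -- (3)
  have h3 := hc_pair tY tP1 (e0.pull (bl F (2 * b - h)))
  have h3' := hc_pair tP1 tY (e0.pull (bl F (2 * b - h)))
  have h3'' : S'.hc (Sys.pr (e0.pull (F.Y h)) (e1.pull (bl F (2 * b - h)))) (e0.pull (bl F (2 * b - h))) =
      S'.hc (Sys.pr (e1.pull (bl F (2 * b - h))) (e0.pull (F.Y h))) (e0.pull (bl F (2 * b - h))) :=
    hc_congr (Eventually.of_forall fun _ _ _ _ _ e => by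
        simp only [pr_apply, Prod.mk.injEq] at e ⊢
        exact ⟨e.1.2, e.1.1⟩)
      (Eventually.of_forall fun _ _ _ _ _ e => by
        simp only [pr_apply, Prod.mk.injEq] at e ⊢
        exact ⟨e.1.2, e.1.1⟩)
      (Eventually.of_forall fun _ _ _ _ _ e => e) (Eventually.of_forall fun _ _ _ _ _ e => e)
  -- (4)
  have h4 : S'.hc (e1.pull (bl F (2 * b - h))) (e0.pull (bl F (2 * b - h))) ≤
      F.S.hc (bl F (2 * b - h)) (bl F (2 * b)) := by
    have a1 : S'.hc (e1.pull (bl F (2 * b - h))) (e0.pull (bl F (2 * b - h))) ≤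
        S'.hc (e1.pull (bl F (2 * b - h))) (e0.pull (bl F (2 * b))) :=
      hc_mono_right tP1 (e0.fn (fn_bl_bl F (by omega)))
    have a2 := hc_le_add tP1 tB1 (e0.pull (bl F (2 * b)))
    have a3 : S'.hc (e1.pull (bl F (2 * b - h))) (Sys.pr (e1.pull (bl F (2 * b))) (e0.pull (bl F (2 * b)))) ≤
        S'.hc (e1.pull (bl F (2 * b - h))) (e1.pull (bl F (2 * b))) :=
      hc_mono_right tP1 (Eventually.of_forall fun _ _ _ _ _ e => congrArg Prod.fst e)
    rw [e1.hc] at a3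
    rw [zero_ball hb hW] at a2
    linarith
  linarith

end Vale.Agent.P076.BG
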