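import Vale.Agent.P076.BG.PairA
import Vale.Agent.P076.BG.PJ2

/-!
# P076 / BG : there is a good window (helper245)

`stPAIR : StLW1 → StQD → StPAIR`.
-/

set_option autoImplicit false

namespace Vale.Agent.P076.BG

open Filter Topology Finset Vale.Agent.P127 Vale.Agent.P127.Stk Vale.Agent.P127.U Vale.Agent.P127.U.Sys
  Vale.Agent.P122.C2 Vale.Agent.P122.E Vale.Agent.P076.NS

/-- Loomis-Whitney in the windows of a fixed system of flags -/
def LWF {K : ℕ} (F : Flg K) (A : ℝ) : Prop := ∀ s w : ℕ, 1 ≤ w → w ≤ s → w ≤ K → s + w ≤ 2 * K →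
  3 * F.S.hc (bl F s) (Sys.pr (bl F (s + w)) (Sys.pr (F.Y w) (pj F s w))) ≤
    F.S.hc (bl F s) (bl F (s + w)) + 6 * gw F w s + A / K

section

variable {K : ℕ} {F : Flg K} {c1 κ A ε : ℝ} {m : ℕ}

/-- one window of a tube -/
theorem tube_win (h : TG0 F c1) (hLW : LWF F A) {b s w : ℕ} (hw : 1 ≤ w) (hws : w ≤ s) (h1 : b ≤ s) (h2 : s + w ≤ 2 * b)
    (h3 : w ≤ b) (hb : b ≤ K) :
    3 * F.S.hc (bl F s) (Sys.pr (F.N b) (bl F (s + w))) ≤
      F.S.hc F.x (bl F (s + w)) - F.S.hc F.x (bl F s) + 6 * gw F w s + A / K := by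
  have g1 := h.I2' b s (s + w) h1 (by omega) h2 (by omega) hb
  rw [Nat.add_sub_cancel_left] at g1
  have g2 := hLW s w hw hws (by omega) (by omega)
  rw [e_sub (Nat.le_add_right s w)] at g2
  linarith

theorem lw_win (h : TG0 F c1) (hLW : LWF F A) (hm : 1 ≤ m) {a : ℕ} (ha : m ≤ a) (haK : a + m ≤ K) :
    3 * ∑ c ∈ Ico a (a + m), tc F c ≤ F.S.hc F.x (bl F (2 * (a + m))) - F.S.hc F.x (bl F (2 * a)) +
      6 * (F.S.hc (F.Y (2 * m)) (bl F (2 * (a + m))) - F.S.hc (F.Y (2 * m)) (bl F (2 * a))) + A / K := by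
  have g1 := h.I2 a (a + m) (Nat.le_add_right _ _) haK
  have g2 := tube_win h hLW (b := a + m) (s := 2 * a) (w := 2 * m) (by omega) (by omega) (by omega) (by omega)
    (by omega) haK
  unfold gw at g2
  have e1 : 2 * a + 2 * m = 2 * (a + m) := by ring
  rw [e1] at g2
  linarith

/-- near-equality, lower bound -/
theorem lw_all (h : TG0 F c1) (hLW : LWF F A) (hA0 : 0 ≤ A) (hm : 1 ≤ m) (hA : A ≤ ε * m) (hmK : (m : ℝ) ≤ ε * K)
    (h2m : 2 * m ≤ K) {i j : ℕ} (hij : i ≤ j) (hj : j ≤ K) :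
    3 * ∑ c ∈ Ico i j, tc F c ≤ F.S.hc F.x (bl F (2 * j)) - F.S.hc F.x (bl F (2 * i)) + 37 * ε := by
  refine tele (e := fun s => F.S.hc F.x (bl F s)) (G := fun s => F.S.hc (F.Y (2 * m)) (bl F s)) hm hA0 hA hmK
    (K_pos F) h.t1 (fun s s' hs _ => e_mono hs) (fun s _ => ⟨hc_nonneg (tame_Y F h2m) _, ?_⟩)
    (fun a ha haK => lw_win h hLW hm ha haK) hij hj
  have := dir_le (F := F) h2m (bl F s)
  push_cast at this
  calc F.S.hc (F.Y (2 * m)) (bl F s) ≤ 2 * (2 * m) / K := this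
    _ = 4 * m / K := by ring

/-- near-equality, upper bound -/
theorem lw_up (h : TGH F c1 κ) (hLW : LWF F A) (hA0 : 0 ≤ A) (hm : 1 ≤ m) (hA : A ≤ ε * m) (hmK : (m : ℝ) ≤ ε * K)
    (h2m : 2 * m ≤ K) (hκ : κ ≤ ε) {i j : ℕ} (hij : i ≤ j) (hj : j ≤ K) :
    F.S.hc F.x (bl F (2 * j)) - F.S.hc F.x (bl F (2 * i)) ≤ 3 * ∑ c ∈ Ico i j, tc F c + 78 * ε := by
  have hK : (0:ℝ) < K := by exact_mod_cast K_pos F
  have g1 := lw_all h.toTG0 hLW hA0 hm hA hmK h2m (Nat.zero_le i) (hij.trans hj)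
  have g2 := lw_all h.toTG0 hLW hA0 hm hA hmK h2m hj le_rfl
  have g3 := h.I4
  have g4 := h.gr (2 * K) le_rfl
  have g5 : F.S.hc F.x (bl F (2 * 0)) ≥ 0 := hc_nonneg (tame_x F) _
  rw [Finset.range_eq_Ico] at g3
  rw [← Finset.sum_Ico_consecutive (tc F) (Nat.zero_le i) (hij.trans hj),
    ← Finset.sum_Ico_consecutive (tc F) hij hj] at g3
  have g6 : 2 * ((2 * K : ℕ) : ℝ) / K = 4 := by
    push_cast
    field_simp
    norm_num
  rw [g6] at g4
  linarith

/-- the ball of radius `d` on the tube of level `d` -/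
theorem tube_sum (h : TG0 F c1) (hLW : LWF F A) (hm : 1 ≤ m) {d : ℕ} (hmd : m ≤ d) (hd : d ≤ K) :
    ∀ J : ℕ, d + J * m ≤ 2 * d →
      3 * F.S.hc (bl F d) (Sys.pr (F.N d) (bl F (d + J * m))) ≤
        F.S.hc F.x (bl F (d + J * m)) - F.S.hc F.x (bl F d) +
          6 * (F.S.hc (F.Y m) (bl F (d + J * m)) - F.S.hc (F.Y m) (bl F d)) + J * (A / K) := by
  intro J
  induction J with
  | zero =>
    intro _
    have : F.S.hc (bl F d) (Sys.pr (F.N d) (bl F (d + 0 * m))) = 0 := by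
      rw [zero_mul, add_zero]
      exact hc_fn (Eventually.of_forall fun _ _ _ _ _ e => congrArg Prod.snd e)
    rw [this]
    simp
  | succ J ih =>
    intro hJ
    have e1 : d + (J + 1) * m = d + J * m + m := by ring
    rw [e1] at hJ ⊢
    have h1 := ih (by omega)
    have h2 := tube_win h hLW (b := d) (s := d + J * m) (w := m) hm (by omega) (by omega) hJ hmd hd
    have h3 := tube_step (F := F) (b := d) (s := d) (s' := d + J * m) (s'' := d + J * m + m) (by omega)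
    unfold gw at h2
    push_cast
    linarith

/-- number of balls of radius `d` on the tube of level `d` -/
theorem tube_le (h : TG0 F c1) (hLW : LWF F A) (hm : 1 ≤ m) (hA : A ≤ ε * m) (hmK : (m : ℝ) ≤ ε * K)
    (h2m : 2 * m ≤ K) {d : ℕ} (hmd : m ≤ d) (hd : d ≤ K) :
    3 * F.S.hc (bl F d) (F.N d) ≤ F.S.hc F.x (bl F (2 * d)) - F.S.hc F.x (bl F d) + 22 * ε := by
  have hK : (0:ℝ) < K := by exact_mod_cast K_pos F
  have hm' : (0:ℝ) < m := by exact_mod_cast hm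
  have hε : 0 ≤ ε := by
    by_contra hcon
    push Not at hcon
    have : ε * K ≤ 0 := mul_nonpos_of_nonpos_of_nonneg hcon.le hK.le
    linarith
  set J := d / m with hJ
  have hJm : J * m ≤ d := Nat.div_mul_le_self _ _
  have hJ2 : d < J * m + m := by
    have := Nat.lt_mul_div_succ d (show 0 < m by omega)
    rw [hJ]
    calc d < m * (d / m + 1) := this
      _ = d / m * m + m := by ring
  have g1 := tube_sum h hLW hm hmd hd J (by omega)
  have g2 := tube_step (F := F) (b := d) (s := d) (s' := d + J * m) (s'' := 2 * d) (by omega)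
  have g3 : F.S.hc (bl F (d + J * m)) (Sys.pr (F.N d) (bl F (2 * d))) ≤ 3 * ε := by
    have a1 : F.S.hc (bl F (d + J * m)) (Sys.pr (F.N d) (bl F (2 * d))) ≤
        F.S.hc (bl F (d + J * m)) (bl F (2 * d)) := hc_le_cond (tame_bl F _) _ _
    have a2 := ball_le (F := F) (s := d + J * m) (s' := 2 * d) (by omega)
    have a3 : 3 * (((2 * d : ℕ) : ℝ) - ((d + J * m : ℕ) : ℝ)) / K ≤ 3 * ε := by
      rw [div_le_iff₀ hK]
      have : 2 * d ≤ d + J * m + m := by omega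
      have a4 : ((2 * d : ℕ) : ℝ) ≤ ((d + J * m : ℕ) : ℝ) + m := by exact_mod_cast this
      linarith
    linarith
  have g4 : F.S.hc (bl F d) (F.N d) ≤ F.S.hc (bl F d) (Sys.pr (F.N d) (bl F (2 * d))) := by
    have a1 := hc_le_add (tame_bl F d) (tame_bl F (2 * d)) (F.N d)
    rw [z_bl_N F hd, add_zero] at a1
    refine a1.trans (hc_mono_right (tame_bl F d) (Eventually.of_forall fun _ _ _ _ _ e => ?_))
    simp only [pr_apply, Prod.mk.injEq] at e ⊢
    exact ⟨e.2, e.1⟩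
  have g5 : F.S.hc (F.Y m) (bl F (d + J * m)) ≤ 2 * ε := by
    refine (dir_le (F := F) (by omega) _).trans ?_
    rw [div_le_iff₀ hK]
    linarith
  have g6 : 0 ≤ F.S.hc (F.Y m) (bl F d) := hc_nonneg (tame_Y F (by omega)) _
  have g7 : (J:ℝ) * (A / K) ≤ ε := by
    have e1 : (J:ℝ) * m ≤ K := by
      have : J * m ≤ K := by omega
      exact_mod_cast this
    have e2 : (J:ℝ) * A ≤ ε * K := by
      calc (J:ℝ) * A ≤ J * (ε * m) := mul_le_mul_of_nonneg_left hA (Nat.cast_nonneg _)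
        _ = ε * (J * m) := by ring
        _ ≤ ε * K := mul_le_mul_of_nonneg_left e1 hε
    rw [mul_div_assoc', div_le_iff₀ hK]
    exact e2
  have g8 : F.S.hc F.x (bl F (d + J * m)) ≤ F.S.hc F.x (bl F (2 * d)) := e_mono (by omega)
  linarith

/-- many directions -/
theorem dir_ge (h : TGH F c1 κ) (hLW : LWF F A) (hA0 : 0 ≤ A) (hm : 1 ≤ m) (hA : A ≤ ε * m) (hmK : (m : ℝ) ≤ ε * K)
    (h2m : 2 * m ≤ K) (hκ : κ ≤ ε) {d : ℕ} (hd : d ≤ K) :
    2 / 3 * (d:ℝ) / K - 37 * ε ≤ F.S.hc (F.Y d) F.x := by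
  have hK : (0:ℝ) < K := by exact_mod_cast K_pos F
  have hm' : (0:ℝ) < m := by exact_mod_cast hm
  have hε : 0 ≤ ε := by
    by_contra hcon
    push Not at hcon
    have : ε * K ≤ 0 := mul_nonpos_of_nonpos_of_nonneg hcon.le hK.le
    linarith
  rcases lt_or_ge d m with hdm | hdm
  · have g1 : 0 ≤ F.S.hc (F.Y d) F.x := hc_nonneg (tame_Y F hd) _
    have g2 : 2 / 3 * (d:ℝ) / K ≤ ε := by
      rw [div_le_iff₀ hK]
      have : (d:ℝ) ≤ m := by exact_mod_cast hdm.le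
      have hd0 : (0:ℝ) ≤ d := Nat.cast_nonneg _
      linarith
    linarith
  · have g1 := h.I5 d hd
    have g2 := tube_le h.toTG0 hLW hm hA hmK h2m hdm hd
    have g3 : F.S.hc F.x (F.N d) ≤ F.S.hc F.x (bl F d) + F.S.hc (bl F d) (F.N d) := by
      have a1 := hc_le_add (tame_x F) (tame_bl F d) (F.N d)
      have a2 : F.S.hc F.x (Sys.pr (bl F d) (F.N d)) ≤ F.S.hc F.x (bl F d) :=
        hc_mono_right (tame_x F) (Eventually.of_forall fun _ _ _ _ _ e => congrArg Prod.fst e)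
      linarith
    have g4 := lw_up h hLW hA0 hm hA hmK h2m hκ (Nat.zero_le d) hd
    have g5 := h.gr d (by omega)
    have g6 := h.gr 0 (by omega)
    rw [Finset.range_eq_Ico] at g1
    have g7 : 2 * ((0:ℕ):ℝ) / K = 0 := by simp
    rw [g7, zero_add] at g6
    have g8 : F.S.hc F.x (bl F (2 * 0)) ≤ κ := g6
    have g9 : 2 / 3 * (d:ℝ) / K = (2 * d / K) / 3 := by ring
    rw [g9]
    linarith

/-- **(J)** -/
theorem pair_J (h : TGP F c1 κ) (hLW : LWF F A) (hA0 : 0 ≤ A) (hm : 1 ≤ m) (hA : A ≤ ε * m) (hmK : (m : ℝ) ≤ ε * K)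
    (h2m : 2 * m ≤ K) (hκ : κ ≤ ε) (hκ0 : 0 ≤ κ) {b g r : ℕ} (hb : b ≤ K) (hg : g ≤ b) (hr : 2 * r ≤ g)
    (hJ : 100 * ε < F.S.hc F.x (bl F (2 * b)) - F.S.hc F.x (bl F (2 * b - 2 * r))) :
    ((g:ℝ) - 6 * r) / K - 100 * ε ≤ F.S.hc F.x (bl F (2 * b)) - F.S.hc F.x (bl F (2 * b - g)) := by
  have hK : (0:ℝ) < K := by exact_mod_cast K_pos F
  have hm' : (1:ℝ) ≤ m := by exact_mod_cast hm
  have hε : 0 ≤ ε := hκ0.trans hκ
  have e1 : 2 * b - 2 * r = 2 * (b - r) := by omega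
  rw [e1] at hJ
  have g1 := lw_up h.toTGH hLW hA0 hm hA hmK h2m hκ (Nat.sub_le b r) hb
  set τ : ℝ := ∑ c ∈ Ico (b - r) b, tc F c - 2 * κ with hτ
  have hτ0 : 0 < τ := by
    rw [hτ]
    linarith
  have g2 := stPJ K F b g r (F.S.h (F.N b) + κ) τ hb hg hr hτ0 (h.N1 b hb) (by
    have a1 := h.UT (b - r) b (Nat.sub_le b r) hb
    have a2 : F.S.h (F.N b) + κ + τ = F.S.h (F.N b) + ∑ i ∈ Ico (b - r) b, tc F i - κ := by
      rw [hτ]
      ring
    rw [a2]
    exact a1)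
  have g3 := dir_ge h.toTGH hLW hA0 hm hA hmK h2m hκ (hg.trans hb)
  rw [e_sub (by omega : 2 * b - g ≤ 2 * b)] at g2
  -- the time digits
  set a := b - g / 2 with ha
  have hab : a ≤ b := Nat.sub_le _ _
  have g4 := h.I2 a b hab hb
  have g5 : F.S.hc (bl F (2 * a)) (Sys.pr (F.N b) (bl F (2 * b))) ≤
      F.S.hc (bl F (2 * b - g)) (Sys.pr (F.N b) (bl F (2 * b))) := by
    refine hc_mono_left (tame_bl F _) (tame_bl F _) ?_
    filter_upwards [fn_bl_bl F (show 2 * b - g ≤ 2 * a by omega)] with i hi ω ω' hω hω' e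
    exact hi ω ω' hω hω' (congrArg Prod.fst e)
  have g6 := lw_up h.toTGH hLW hA0 hm hA hmK h2m hκ hab hb
  have g7 : F.S.hc F.x (bl F (2 * a)) - F.S.hc F.x (bl F (2 * b - g)) ≤ 3 * ε := by
    rw [← e_sub (by omega : 2 * b - g ≤ 2 * a)]
    refine (ball_le (by omega)).trans ?_
    rw [div_le_iff₀ hK]
    have : 2 * a ≤ 2 * b - g + 1 := by omega
    have a1 : ((2 * a : ℕ) : ℝ) ≤ ((2 * b - g : ℕ) : ℝ) + 1 := by exact_mod_cast this
    linarith
  have g8 : 2 / 3 * (g:ℝ) / K = 2 / 3 * (g / K) := by ring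
  have g9 : 4 * (r:ℝ) / K = 4 * (r / K) := by ring
  have g10 : ((g:ℝ) - 6 * r) / K = g / K - 6 * (r / K) := by ring
  rw [g8] at g3
  rw [g9] at g2
  rw [g10]
  linarith

end

/-- **there is a good window** -/
theorem stPAIR (hL : StLW1) (hQ : StQD) : StPAIR := by
  intro η hη
  obtain ⟨A, hA0, hLW⟩ := hL
  obtain ⟨h0, κQ, KQ, hh0, hκQ, hQ⟩ := hQ η hη
  set ε : ℝ := min (min κQ (η * h0)) 1 / 1000 with hε
  have hε0 : 0 < ε := by
    rw [hε]
    have : 0 < min (min κQ (η * h0)) 1 := lt_min (lt_min hκQ (mul_pos hη hh0)) one_pos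
    positivity
  have hε1 : 1000 * ε ≤ κQ := by
    rw [hε]
    have := (min_le_left (min κQ (η * h0)) 1).trans (min_le_left κQ (η * h0))
    linarith
  have hε2 : 1000 * ε ≤ η * h0 := by
    rw [hε]
    have := (min_le_left (min κQ (η * h0)) 1).trans (min_le_right κQ (η * h0))
    linarith
  have hε3 : 1000 * ε ≤ 1 := by
    rw [hε]
    have := min_le_right (min κQ (η * h0)) 1
    linarith
  set m : ℕ := ⌈A / ε⌉₊ + 1 with hm
  have hmA : A ≤ ε * m := by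
    have h1 : A / ε ≤ ⌈A / ε⌉₊ := Nat.le_ceil _
    rw [div_le_iff₀ hε0] at h1
    rw [hm]
    push_cast
    nlinarith
  refine ⟨h0, ε, max KQ ⌈(m:ℝ) / ε⌉₊, hh0, hε0, fun c1 hc1 K F hK h => ?_⟩
  have hKQ : KQ ≤ K := (le_max_left _ _).trans hK
  have hmK : (m:ℝ) ≤ ε * K := by
    have h1 : (m:ℝ) / ε ≤ ⌈(m:ℝ) / ε⌉₊ := Nat.le_ceil _
    have h2 : ((⌈(m:ℝ) / ε⌉₊ : ℕ) : ℝ) ≤ K := by exact_mod_cast (le_max_right _ _).trans hK
    have h3 : (m:ℝ) / ε ≤ K := h1.trans h2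
    rw [div_le_iff₀ hε0] at h3
    linarith
  have hK1 := K_pos F
  have hK' : (0:ℝ) < K := by exact_mod_cast hK1
  have hm1 : 1 ≤ m := by omega
  have h2m : 2 * m ≤ K := by
    have : (2:ℝ) * m ≤ K := by nlinarith
    exact_mod_cast this
  have hF : LWF F A := hLW c1 hc1 K F hK1 h.toTG0
  have up : ∀ i j, i ≤ j → j ≤ K →
      F.S.hc F.x (bl F (2 * j)) - F.S.hc F.x (bl F (2 * i)) ≤ 3 * ∑ c ∈ Ico i j, tc F c + 78 * ε :=
    fun i j hij hj => lw_up h.toTGH hF hA0 hm1 hmA hmK h2m le_rfl hij hj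
  have lo : ∀ i j, i ≤ j → j ≤ K →
      3 * ∑ c ∈ Ico i j, tc F c ≤ F.S.hc F.x (bl F (2 * j)) - F.S.hc F.x (bl F (2 * i)) + 37 * ε :=
    fun i j hij hj => lw_all h.toTG0 hF hA0 hm1 hmA hmK h2m hij hj
  have dg : ∀ d, d ≤ K → 2 / 3 * (d:ℝ) / K - 37 * ε ≤ F.S.hc (F.Y d) F.x :=
    fun d hd => dir_ge h.toTGH hF hA0 hm1 hmA hmK h2m le_rfl hd
  obtain ⟨w, s, ρ, q1, q2, q3, q4, q5, q6, q7⟩ := hQ K (fun s => F.S.hc F.x (bl F s))
    (fun d s => F.S.hc (F.Y d) (bl F s)) hKQ (hc_nonneg (tame_x F) _) (fun s s' hs _ => e_mono hs)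
    (fun s s' hs _ => by
      have := ball_le (F := F) hs
      rw [e_sub hs] at this
      linarith)
    (fun s hs => by
      have := h.gr s hs
      linarith)
    (by
      have g1 := lo 0 K (Nat.zero_le _) le_rfl
      have g2 := h.I4
      have g3 : 0 ≤ F.S.hc F.x (bl F (2 * 0)) := hc_nonneg (tame_x F) _
      rw [Finset.range_eq_Ico] at g2
      linarith)
    (fun d s hd _ => ⟨hc_nonneg (tame_Y F hd) _, by
      have := dir_le (F := F) hd (bl F s)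
      linarith⟩)
    (fun d s s' hd hs _ => hc_mono_right (tame_Y F hd) (fn_bl_bl F hs))
    (fun b g r hb hg hr hJ => by
      have := pair_J h hF hA0 hm1 hmA hmK h2m le_rfl hε0.le hb hg hr (by linarith)
      linarith)
  have hw0 : h0 ≤ (w:ℝ) / K := by
    rw [le_div_iff₀ hK']
    exact q1
  have hηw : η * h0 ≤ η * w / K := by
    rw [mul_div_assoc]
    exact mul_le_mul_of_nonneg_left hw0 hη.le
  refine ⟨s, w, ρ, q1, q2, q3, q4, q5, fun s' h1 h2 => ?_, q7, fun i j h1 h2 h3 => ?_, fun d hd => ?_⟩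
  · rw [e_sub h1]
    exact q6 s' h1 h2
  · have hjK : j ≤ K := by omega
    rw [e_sub (by omega : 2 * i ≤ 2 * j)]
    have g1 := up i j h2 hjK
    have g2 := lo i j h2 hjK
    rw [abs_le]
    constructor <;> linarith
  · have := dg d hd
    linarith

/-- Prop of the block -/
theorem stTG' (hP : StPAIR) (hW : StWIN) : StTG' := by
  obtain ⟨η, hη, hW⟩ := hW
  obtain ⟨h, κ1, K1, hh, hκ1, hP⟩ := hP η hη
  obtain ⟨κ2, K2, hκ2, hW⟩ := hW h hh
  refine ⟨min κ1 κ2, max K1 K2, lt_min hκ1 hκ2, fun c1 hc1 K F hK hF => ?_⟩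
  have mono : ∀ κ κ' : ℝ, κ ≤ κ' → TGX F c1 κ → TGX F c1 κ' := by
    intro κ κ' hk g
    have hU : ∀ {α : Type} (X : F.S.RV α) (r r' : ℝ), r' ≤ r → Unf F.S X r → Unf F.S X r' := by
      intro α X r r' hr hX ε hε
      filter_upwards [hX ε hε] with i hi ω
      refine (hi ω).trans (Real.rpow_le_rpow_of_exponent_le (by norm_num) ?_)
      exact mul_le_mul_of_nonneg_right (by linarith) (Nat.cast_nonneg _)
    have hC : ∀ {α β : Type} (X : F.S.RV α) (Z : F.S.RV β) (r r' : ℝ), r ≤ r' → Cnt F.S X Z r → Cnt F.S X Z r' := by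
      intro α β X Z r r' hr hX ε hε
      filter_upwards [hX ε hε] with i hi ω hω
      obtain ⟨U, hU, hU'⟩ := hi ω hω
      refine ⟨U, hU.trans (Real.rpow_le_rpow_of_exponent_le (by norm_num) ?_), hU'⟩
      exact mul_le_mul_of_nonneg_right (by linarith) (Nat.cast_nonneg _)
    exact
      { toTG0 := g.toTG0
        I4 := by linarith [g.I4]
        gr := fun s hs => by linarith [g.gr s hs]
        I5 := fun d hd => by linarith [g.I5 d hd]
        N1 := fun b hb => hC _ _ _ _ (by linarith) (g.N1 b hb)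
        UT := fun c b hc hb => hU _ _ _ (by linarith) (g.UT c b hc hb)
        cb := fun s s' hs hs' => hC _ _ _ _ (by linarith) (g.cb s s' hs hs')
        cp := fun s w a1 a2 a3 => hC _ _ _ _ (by linarith) (g.cp s w a1 a2 a3)
        cd := fun d s a1 a2 => hC _ _ _ _ (by linarith) (g.cd d s a1 a2)
        ub := fun s a1 => hU _ _ _ (by linarith) (g.ub s a1)
        ud := fun d s a1 a2 => hU _ _ _ (by linarith) (g.ud d s a1 a2) }
  obtain ⟨s, w, ρ, hwin⟩ := hP c1 hc1 K F ((le_max_left _ _).trans hK) (mono _ _ (min_le_left _ _) hF).toTGP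
  exact hW c1 hc1 K F ((le_max_right _ _).trans hK) (mono _ _ (min_le_right _ _) hF) s w ρ hwin

end Vale.Agent.P076.BG
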