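import Vale.Agent.P076.BG.Flags
import Vale.Agent.P076.NS.Geo

/-!
# P076 / BG : entropies of balls, telescoping of the windows (helper245)
-/

set_option autoImplicit false

namespace Vale.Agent.P076.BG

open Filter Topology Finset Vale.Agent.P127 Vale.Agent.P127.Stk Vale.Agent.P127.U Vale.Agent.P127.U.Sys
  Vale.Agent.P122.C2 Vale.Agent.P122.E Vale.Agent.P076.NS

/-! ### real sums -/

theorem sum_le_len {K : ℕ} {t : ℕ → ℝ} (ht : ∀ c, c < K → t c ≤ 2 / K) {i j : ℕ} (hij : i ≤ j) (hj : j ≤ K) :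
    ∑ c ∈ Ico i j, t c ≤ ((j : ℝ) - i) * (2 / K) := by
  have h1 : ∑ c ∈ Ico i j, t c ≤ ∑ _c ∈ Ico i j, (2 / K : ℝ) :=
    Finset.sum_le_sum fun c hc => ht c ((Finset.mem_Ico.1 hc).2.trans_le hj)
  rw [Finset.sum_const, Nat.card_Ico, nsmul_eq_mul, Nat.cast_sub hij] at h1
  exact h1

theorem win_sum {K m : ℕ} {t e G : ℕ → ℝ} {B : ℝ}
    (hw : ∀ a, m ≤ a → a + m ≤ K →
      3 * ∑ c ∈ Ico a (a + m), t c ≤ e (2 * (a + m)) - e (2 * a) + 6 * (G (2 * (a + m)) - G (2 * a)) + B)
    {a : ℕ} (ha : m ≤ a) : ∀ J : ℕ, a + J * m ≤ K →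
      3 * ∑ c ∈ Ico a (a + J * m), t c ≤
        e (2 * (a + J * m)) - e (2 * a) + 6 * (G (2 * (a + J * m)) - G (2 * a)) + J * B := by
  intro J
  induction J with
  | zero => intro _; simp
  | succ J ih =>
    intro hJ
    have e1 : a + (J + 1) * m = a + J * m + m := by ring
    rw [e1] at hJ ⊢
    have h1 := ih (by omega)
    have h2 := hw (a + J * m) (ha.trans (Nat.le_add_right _ _)) hJ
    have h3 := Finset.sum_Ico_consecutive t (Nat.le_add_right a (J * m)) (Nat.le_add_right (a + J * m) m)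
    rw [← h3]
    push_cast
    linarith

theorem tele {K m : ℕ} {t e G : ℕ → ℝ} {A ε : ℝ} (hm : 1 ≤ m) (hA0 : 0 ≤ A) (hA : A ≤ ε * m)
    (hmK : (m : ℝ) ≤ ε * K) (hK : 1 ≤ K) (ht : ∀ c, c < K → t c ≤ 2 / K)
    (he : ∀ s s', s ≤ s' → s' ≤ 2 * K → e s ≤ e s') (hG : ∀ s, s ≤ 2 * K → 0 ≤ G s ∧ G s ≤ 4 * m / K)
    (hw : ∀ a, m ≤ a → a + m ≤ K →
      3 * ∑ c ∈ Ico a (a + m), t c ≤ e (2 * (a + m)) - e (2 * a) + 6 * (G (2 * (a + m)) - G (2 * a)) + A / K)
    {i j : ℕ} (hij : i ≤ j) (hj : j ≤ K) : 3 * ∑ c ∈ Ico i j, t c ≤ e (2 * j) - e (2 * i) + 37 * ε := by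
  have hK' : (0:ℝ) < K := by exact_mod_cast hK
  have hm' : (0:ℝ) < m := by exact_mod_cast hm
  have hmd : (m:ℝ) * (2 / K) ≤ 2 * ε := by
    rw [mul_div_assoc', div_le_iff₀ hK']
    linarith
  have hε : 0 ≤ ε := by
    by_contra hcon
    push Not at hcon
    have : ε * K ≤ 0 := mul_nonpos_of_nonpos_of_nonneg hcon.le hK'.le
    linarith
  set a := max i m with ha
  have hia : i ≤ a := le_max_left _ _
  have hma : m ≤ a := le_max_right _ _
  rcases le_or_gt j a with hja | hja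
  · have h1 := sum_le_len ht hij hj
    have h2 : (j:ℝ) - i ≤ m := by
      have : j ≤ i + m := by omega
      have h3 : (j:ℝ) ≤ i + m := by exact_mod_cast this
      linarith
    have h3 : ((j:ℝ) - i) * (2 / K) ≤ m * (2 / K) := mul_le_mul_of_nonneg_right h2 (by positivity)
    have h4 := he (2 * i) (2 * j) (by omega) (by omega)
    linarith
  · set J := (j - a) / m with hJ
    have hJm : J * m ≤ j - a := Nat.div_mul_le_self _ _
    have hJ2 : j - a < (J + 1) * m := by
      have := Nat.lt_mul_div_succ (j - a) (show 0 < m by omega)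
      rw [mul_comm]
      exact this
    have hb : a + J * m ≤ j := by omega
    have h1 := win_sum hw hma J (by omega)
    have h2 : ∑ c ∈ Ico i a, t c ≤ m * (2 / K) := by
      refine (sum_le_len ht hia (by omega)).trans (mul_le_mul_of_nonneg_right ?_ (by positivity))
      have : a ≤ i + m := by omega
      have h3 : (a:ℝ) ≤ i + m := by exact_mod_cast this
      linarith
    have h3 : ∑ c ∈ Ico (a + J * m) j, t c ≤ m * (2 / K) := by
      refine (sum_le_len ht hb hj).trans (mul_le_mul_of_nonneg_right ?_ (by positivity))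
      have : j ≤ a + J * m + m := by
        have e1 : (J + 1) * m = J * m + m := by ring
        omega
      have h3 : (j:ℝ) ≤ ((a + J * m : ℕ) : ℝ) + m := by exact_mod_cast this
      linarith
    have h4 := Finset.sum_Ico_consecutive t hia (le_trans (Nat.le_add_right a (J * m)) hb)
    have h5 := Finset.sum_Ico_consecutive t (Nat.le_add_right a (J * m)) hb
    have h6 := hG (2 * (a + J * m)) (by omega)
    have h7 := hG (2 * a) (by omega)
    have h8 : 4 * (m:ℝ) / K ≤ 4 * ε := by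
      rw [div_le_iff₀ hK']
      linarith
    have h9 : (J:ℝ) * (A / K) ≤ ε := by
      have e1 : (J:ℝ) * m ≤ K := by
        have : J * m ≤ K := by omega
        exact_mod_cast this
      have e2 : (J:ℝ) * A ≤ ε * K := by
        calc (J:ℝ) * A ≤ J * (ε * m) := mul_le_mul_of_nonneg_left hA (Nat.cast_nonneg _)
          _ = ε * (J * m) := by ring
          _ ≤ ε * K := mul_le_mul_of_nonneg_left e1 hε
      rw [mul_div_assoc', div_le_iff₀ hK']
      exact e2
    have h10 := he (2 * i) (2 * a) (by omega) (by omega)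
    have h11 := he (2 * (a + J * m)) (2 * j) (by omega) (by omega)
    rw [← h4, ← h5]
    linarith

/-! ### entropies -/

section flg

variable {K : ℕ} {F : Flg K}

theorem e_sub {s s' : ℕ} (h : s ≤ s') :
    F.S.hc (bl F s) (bl F s') = F.S.hc F.x (bl F s') - F.S.hc F.x (bl F s) := by
  have h1 := hc_pair (tame_bl F s) (tame_x F) (bl F s')
  have h2 : F.S.hc (Sys.pr (bl F s) F.x) (bl F s') = F.S.hc F.x (bl F s') :=
    hc_congr (by
        filter_upwards [fn_bl_x F s] with i hi ω ω' hω hω' e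
        have e' : F.x i ω = F.x i ω' := congrArg Prod.fst e
        exact Prod.ext (hi ω ω' hω hω' e') e')
      (Eventually.of_forall fun _ _ _ _ _ e => congrArg (fun q => q.1.2) e)
      (Eventually.of_forall fun _ _ _ _ _ e => e) (Eventually.of_forall fun _ _ _ _ _ e => e)
  have h3 : F.S.hc F.x (Sys.pr (bl F s) (bl F s')) = F.S.hc F.x (bl F s) :=
    hc_congr (Eventually.of_forall fun _ _ _ _ _ e => congrArg Prod.fst e)
      (Eventually.of_forall fun _ _ _ _ _ e => congrArg Prod.fst e)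
      (by
        filter_upwards [fn_bl_bl F h] with i hi ω ω' hω hω' e
        have e' : bl F s i ω = bl F s i ω' := e
        exact Prod.ext e' (hi ω ω' hω hω' e'))
      (Eventually.of_forall fun _ _ _ _ _ e => congrArg Prod.fst e)
  linarith

theorem e_mono {s s' : ℕ} (h : s ≤ s') : F.S.hc F.x (bl F s) ≤ F.S.hc F.x (bl F s') :=
  hc_mono_right (tame_x F) (fn_bl_bl F h)

/-- number of balls in a ball -/
theorem cnt_bl {s s' : ℕ} (h : s ≤ s') : Cnt F.S (bl F s) (bl F s') (3 * ((s' : ℝ) - s) / K) := by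
  classical
  intro ε hε
  have hK : (0:ℝ) < K := by exact_mod_cast K_pos F
  refine Eventually.of_forall fun i ω _ => ?_
  set n := F.n i with hn
  set d := s' - s with hd
  let I : ℤ → Finset ℤ := fun q => Finset.Ico (q * 2 ^ (d * n)) ((q + 1) * 2 ^ (d * n))
  have hI : ∀ q, (I q).card = 2 ^ (d * n) := by
    intro q
    show (Finset.Ico (q * 2 ^ (d * n)) ((q + 1) * 2 ^ (d * n))).card = _
    rw [Int.card_Ico]
    have : (q + 1) * 2 ^ (d * n) - q * 2 ^ (d * n) = (2:ℤ) ^ (d * n) := by ring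
    rw [this, Vale.Agent.P127.Stk.toNat_pow_aux]
  have hmem : ∀ a : ℤ, a / 2 ^ (s * n) ∈ I (a / 2 ^ (s' * n)) := by
    intro a
    have e1 : a / 2 ^ (s' * n) = (a / 2 ^ (s * n)) / 2 ^ (d * n) := by
      rw [Int.ediv_ediv_of_nonneg (by positivity), ← pow_add, ← add_mul]
      congr 3
      omega
    show a / 2 ^ (s * n) ∈ Finset.Ico _ _
    rw [e1, Finset.mem_Ico]
    have hp : (0:ℤ) < 2 ^ (d * n) := by positivity
    have h1 := Int.mul_ediv_add_emod (a / 2 ^ (s * n)) (2 ^ (d * n))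
    have h2 := Int.emod_nonneg (a / 2 ^ (s * n)) hp.ne'
    have h3 := Int.emod_lt_of_pos (a / 2 ^ (s * n)) hp
    constructor <;> nlinarith
  refine ⟨(I (bl F s' i ω).1) ×ˢ (Fintype.piFinset fun k => I ((bl F s' i ω).2 k)), ?_, fun ω' _ e => ?_⟩
  · rw [Finset.card_product, Fintype.card_piFinset]
    simp only [hI, Finset.prod_const, Finset.card_univ, Fintype.card_fin]
    have e1 : ((2 ^ (d * n) * (2 ^ (d * n)) ^ 2 : ℕ) : ℝ) = (2:ℝ) ^ (((3 * (d * n) : ℕ)) : ℝ) := by
      rw [Real.rpow_natCast]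
      push_cast
      rw [← pow_mul, ← pow_add]
      congr 1
      ring
    rw [e1]
    refine Real.rpow_le_rpow_of_exponent_le (by norm_num) ?_
    rw [F.L_eq i]
    push_cast
    have e2 : ((d:ℕ):ℝ) = (s':ℝ) - s := by rw [hd, Nat.cast_sub h]
    rw [e2, ← hn]
    have e3 : 3 * ((s':ℝ) - s) / K * (K * n) = 3 * (((s':ℝ) - s) * n) := by field_simp
    have e4 : (0:ℝ) ≤ ε * (K * n) := by positivity
    nlinarith
  · have e1 : (bl F s' i ω') = bl F s' i ω := e
    rw [Finset.mem_product, Fintype.mem_piFinset, ← e1]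
    exact ⟨hmem _, fun k => hmem _⟩

theorem ball_le {s s' : ℕ} (h : s ≤ s') : F.S.hc (bl F s) (bl F s') ≤ 3 * ((s' : ℝ) - s) / K :=
  Vale.Agent.P122.H540.hc_le_of_cnt (tame_bl F s) (cnt_bl h)

/-- number of caps -/
theorem cnt_Y {d : ℕ} (hd : d ≤ K) : Cnt F.S (F.Y d) (one (S := F.S)) (2 * d / K) := by
  intro ε hε
  have hK : (0:ℝ) < K := by exact_mod_cast K_pos F
  refine Eventually.of_forall fun i ω _ => ?_
  refine ⟨Fintype.piFinset fun _ => Finset.Ico (0:ℤ) (2 ^ (d * F.n i)), ?_, fun ω' hω' _ => ?_⟩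
  · rw [Fintype.card_piFinset]
    simp only [Int.card_Ico, sub_zero, Finset.prod_const, Finset.card_univ, Fintype.card_fin]
    rw [Vale.Agent.P127.Stk.toNat_pow_aux]
    have e1 : (((2 ^ (d * F.n i)) ^ 2 : ℕ) : ℝ) = (2:ℝ) ^ (((2 * (d * F.n i) : ℕ)) : ℝ) := by
      rw [Real.rpow_natCast]
      push_cast
      rw [← pow_mul]
      congr 1
      ring
    rw [e1]
    refine Real.rpow_le_rpow_of_exponent_le (by norm_num) ?_
    rw [F.L_eq i]
    push_cast
    have e3 : 2 * (d:ℝ) / K * (K * F.n i) = 2 * (d * F.n i) := by field_simp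
    have e4 : (0:ℝ) ≤ ε * (K * F.n i) := by positivity
    nlinarith
  · rw [Fintype.mem_piFinset]
    intro k
    rw [Finset.mem_Ico]
    exact cap_N hd hω' k

theorem dir_le {d : ℕ} (hd : d ≤ K) {β : Type*} (Z : F.S.RV β) : F.S.hc (F.Y d) Z ≤ 2 * d / K :=
  (hc_le_h (tame_Y F hd) Z).trans (Vale.Agent.P122.H540.hc_le_of_cnt (tame_Y F hd) (cnt_Y hd))

/-- three balls on a tube -/
theorem tube_step {b s s' s'' : ℕ} (_ : s' ≤ s'') :
    F.S.hc (bl F s) (Sys.pr (F.N b) (bl F s'')) ≤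
      F.S.hc (bl F s) (Sys.pr (F.N b) (bl F s')) + F.S.hc (bl F s') (Sys.pr (F.N b) (bl F s'')) := by
  have h1 := hc_le_add (tame_bl F s) (tame_bl F s') (Sys.pr (F.N b) (bl F s''))
  have h2 : F.S.hc (bl F s) (Sys.pr (bl F s') (Sys.pr (F.N b) (bl F s''))) ≤
      F.S.hc (bl F s) (Sys.pr (F.N b) (bl F s')) :=
    hc_mono_right (tame_bl F s) (Eventually.of_forall fun _ _ _ _ _ e => by
      simp only [pr_apply, Prod.mk.injEq] at e ⊢
      exact ⟨e.2.1, e.1⟩)
  linarith

end flg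

end Vale.Agent.P076.BG
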