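import Vale.Agent.P076.BG.Pair
import Vale.Agent.P076.H307.QD3

/-!
# P076 / BG : what remains of the block (helper245)
-/

set_option autoImplicit false

namespace Vale.Agent.P076.BG

/-- `StQD` (helper307) -/
theorem stQD : StQD := Vale.Agent.P076.H307.qd

/-- the block follows from Loomis-Whitney in one window and the window lemma -/
theorem stTG'_of (hL : StLW1) (hW : StWIN) : StTG' := stTG' (stPAIR hL stQD) hW

end Vale.Agent.P076.BG
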